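import Mathlib

/-!
Area of an origin-symmetric polygon with prescribed normals, and the second variation inequality
for it (a discrete Wirtinger inequality, proved by Picone's trick).

A cyclic family of normals is a strictly increasing sequence `θ : ℤ → ℝ` with
`θ (i + m) = θ i + π`; the heights are `m`-periodic.
-/

open Real Set MeasureTheory Finset

namespace Vale.Agent.P227

/-- A cyclic family of directions modulo `π`. -/
structure Fan where
  /-- the number of directions -/
  m : ℕ
  /-- the angles -/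
  θ : ℤ → ℝ
  two_le : 2 ≤ m
  step : ∀ i, θ i < θ (i + 1)
  period : ∀ i, θ (i + m) = θ i + π

/-- Periodicity with period `m`. -/
def Per (m : ℕ) (f : ℤ → ℝ) : Prop := ∀ i, f (i + m) = f i

lemma Per.sub {m : ℕ} {f : ℤ → ℝ} (h : Per m f) (i : ℤ) : f (i - m) = f i := by
  rw [← h (i - m), sub_add_cancel]

lemma Per.mul {m : ℕ} {f g : ℤ → ℝ} (hf : Per m f) (hg : Per m g) : Per m (fun i => f i * g i) :=
  fun i => by simp only [hf i, hg i]

/-- A sum over one period does not depend on where it starts. -/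
lemma Per.sum_shift {m : ℕ} {F : ℤ → ℝ} (hF : Per m F) (i : ℤ) :
    ∑ n ∈ range m, F (i + n) = ∑ n ∈ range m, F n := by
  have step : ∀ i : ℤ, ∑ n ∈ range m, F (i + 1 + n) = ∑ n ∈ range m, F (i + n) := by
    intro i
    have h1 := sum_range_succ (fun n : ℕ => F (i + n)) m
    have h2 := sum_range_succ' (fun n : ℕ => F (i + n)) m
    simp only [hF i, Nat.cast_zero, add_zero, Nat.cast_add, Nat.cast_one] at h1 h2
    have h3 : ∑ n ∈ range m, F (i + (n + 1)) = ∑ n ∈ range m, F (i + 1 + n) :=
      sum_congr rfl fun n _ => by rw [show i + ((n : ℤ) + 1) = i + 1 + n by ring]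
    linarith
  induction i using Int.induction_on with
  | zero => simp
  | succ k ih => rw [step, ih]
  | pred k ih => rw [← ih, ← step (-(k : ℤ) - 1), sub_add_cancel]

namespace Fan

variable (P : Fan)

lemma strictMono : StrictMono P.θ := strictMono_int_of_lt_succ P.step

/-- angle between consecutive directions -/
def Δ (i : ℤ) : ℝ := P.θ (i + 1) - P.θ i

lemma Δ_pos (i : ℤ) : 0 < P.Δ i := sub_pos.2 (P.step i)

lemma Δ_lt_pi (i : ℤ) : P.Δ i < π := by
  have h2 := P.two_le
  have : P.θ (i + 1) < P.θ (i + P.m) := P.strictMono (by omega)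
  rw [P.period] at this
  unfold Δ
  linarith

lemma Δ_per : Per P.m P.Δ := fun i => by
  rw [Δ, Δ, show i + (P.m : ℤ) + 1 = i + 1 + P.m by ring, P.period, P.period]
  ring

lemma sin_Δ_pos (i : ℤ) : 0 < sin (P.Δ i) := sin_pos_of_pos_of_lt_pi (P.Δ_pos i) (P.Δ_lt_pi i)

/-- the coordinate of the vertex `i` along the side `i` -/
noncomputable def q (h : ℤ → ℝ) (i : ℤ) : ℝ := (h (i + 1) - h i * cos (P.Δ i)) / sin (P.Δ i)

/-- minus the coordinate of the vertex `i` along the side `i + 1` -/
noncomputable def p (h : ℤ → ℝ) (i : ℤ) : ℝ := (h i - h (i + 1) * cos (P.Δ i)) / sin (P.Δ i)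

/-- side length -/
noncomputable def len (h : ℤ → ℝ) (i : ℤ) : ℝ := P.q h i + P.p h (i - 1)

/-- the bilinear form polarising the area -/
noncomputable def Q (f g : ℤ → ℝ) : ℝ := ∑ n ∈ range P.m, f n * P.len g n

variable {P} {h f g : ℤ → ℝ}

lemma q_per (hh : Per P.m h) : Per P.m (P.q h) := fun i => by
  rw [q, q, show i + (P.m : ℤ) + 1 = i + 1 + P.m by ring, hh, hh, P.Δ_per]

lemma p_per (hh : Per P.m h) : Per P.m (P.p h) := fun i => by
  rw [p, p, show i + (P.m : ℤ) + 1 = i + 1 + P.m by ring, hh, hh, P.Δ_per]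

lemma len_per (hh : Per P.m h) : Per P.m (P.len h) := fun i => by
  rw [len, len, q_per hh, show i + (P.m : ℤ) - 1 = i - 1 + P.m by ring, p_per hh]

lemma Q_shift (hf : Per P.m f) (hg : Per P.m g) (i : ℤ) :
    P.Q f g = ∑ n ∈ range P.m, f (i + n) * P.len g (i + n) :=
  (Per.sum_shift (hf.mul (len_per hg)) i).symm

lemma Q_pairs (hf : Per P.m f) (hg : Per P.m g) :
    P.Q f g = ∑ n ∈ range P.m, (f n * P.q g n + f (n + 1) * P.p g n) := by
  rw [Q, sum_add_distrib]
  simp only [len, mul_add, sum_add_distrib]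
  congr 1
  have h1 : Per P.m (fun i => f (i + 1) * P.p g i) := fun i => by
    simp only [p_per hg i, show i + (P.m : ℤ) + 1 = i + 1 + P.m by ring, hf (i + 1)]
  rw [← Per.sum_shift h1 (-1)]
  refine sum_congr rfl fun n _ => ?_
  rw [neg_add_eq_sub, sub_add_cancel]

lemma Q_comm (hf : Per P.m f) (hg : Per P.m g) : P.Q f g = P.Q g f := by
  rw [Q_pairs hf hg, Q_pairs hg hf]
  refine sum_congr rfl fun n _ => ?_
  simp only [q, p]
  ring

/-- The discrete Wirtinger inequality: a perturbation vanishing on one side has nonpositive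
second order area. -/
theorem Q_nonpos (hf : Per P.m f) (i : ℤ) (hi : f i = 0) : P.Q f f ≤ 0 := by
  have hT : Per P.m (fun j => f j * P.q f j + f (j + 1) * P.p f j) := fun j => by
    simp only [hf j, q_per hf j, p_per hf j, show j + (P.m : ℤ) + 1 = j + 1 + P.m by ring,
      hf (j + 1)]
  rw [Q_pairs hf hf, ← Per.sum_shift hT i]
  set Φ : ℕ → ℝ := fun n => f (i + n) ^ 2 * (cos (P.θ (i + n) - P.θ i) / sin (P.θ (i + n) - P.θ i))
    with hΦ
  have key : ∀ n < P.m,
      f (i + n) * P.q f (i + n) + f (i + n + 1) * P.p f (i + n) ≤ Φ n - Φ (n + 1) := by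
    intro n hn
    set a := f (i + n)
    set b := f (i + n + 1)
    set D := P.Δ (i + n) with hD
    have hsD : 0 < sin D := P.sin_Δ_pos _
    have e : a * P.q f (i + n) + b * P.p f (i + n) =
        (2 * a * b - cos D * (a ^ 2 + b ^ 2)) / sin D := by
      simp only [q, p, ← hD, a, b]
      ring
    have eΦ : Φ (n + 1) = b ^ 2 * (cos (P.θ (i + n) - P.θ i + D) /
        sin (P.θ (i + n) - P.θ i + D)) := by
      simp only [hΦ, b, hD, Δ, Nat.cast_add, Nat.cast_one, ← add_assoc]
      ring_nf
    rw [e, eΦ]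
    set A := P.θ (i + n) - P.θ i with hA
    change _ ≤ a ^ 2 * (cos A / sin A) - _
    rcases Nat.eq_zero_or_pos n with rfl | hn0
    · have ha : a = 0 := by simp [a, hi]
      have hA0 : A = 0 := by simp [A]
      rw [ha, hA0, zero_add]
      ring_nf
      exact le_rfl
    have hsA : 0 < sin A := by
      refine sin_pos_of_pos_of_lt_pi (sub_pos.2 (P.strictMono (by omega))) ?_
      have : P.θ (i + n) < P.θ (i + P.m) := P.strictMono (by omega)
      rw [P.period] at this
      linarith
    rcases eq_or_ne (n + 1) P.m with hlast | hlast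
    · have hb : b = 0 := by
        simp only [b, show i + (n : ℤ) + 1 = i + P.m by omega]
        rw [hf i]; exact hi
      have hAD : A = π - D := by
        simp only [A, D, Δ, show i + (n : ℤ) + 1 = i + P.m by omega, P.period]
        ring
      rw [hb, hAD, cos_pi_sub, sin_pi_sub]
      ring_nf
      exact le_rfl
    have hsAD : 0 < sin (A + D) := by
      refine sin_pos_of_pos_of_lt_pi ?_ ?_
      · have : P.θ i < P.θ (i + n + 1) := P.strictMono (by omega)
        simp only [A, D, Δ]
        linarith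
      · have : P.θ (i + n + 1) < P.θ (i + P.m) := P.strictMono (by omega)
        rw [P.period] at this
        simp only [A, D, Δ]
        linarith
    rw [← sub_nonneg]
    have hsin := sin_add A D
    have hcos := cos_add A D
    have hpy := sin_sq_add_cos_sq A
    have e2 : a ^ 2 * (cos A / sin A) - b ^ 2 * (cos (A + D) / sin (A + D)) -
        (2 * a * b - cos D * (a ^ 2 + b ^ 2)) / sin D =
        (a * sin (A + D) - b * sin A) ^ 2 / (sin A * sin (A + D) * sin D) := by
      rw [hcos, hsin]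
      rw [hsin] at hsAD
      field_simp
      linear_combination (sin A ^ 2 * b ^ 2) * sin_sq_add_cos_sq D
    rw [e2]
    positivity
  refine (sum_le_sum fun n hn => key n (Finset.mem_range.1 hn)).trans (le_of_eq ?_)
  rw [sum_range_sub' Φ P.m]
  simp [hΦ, hi, hf i]

lemma len_linear (c : ℝ) (j : ℤ) :
    P.len (fun i => f i - c * g i) j = P.len f j - c * P.len g j := by
  simp only [len, q, p]
  ring

/-- The local log-Brunn-Minkowski inequality of a symmetric polygon. -/
theorem log_second (hh : Per P.m h) (hg : Per P.m g) (hpos : ∀ i, 0 < h i)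
    (hlen : ∀ i, 0 < P.len h i) :
    P.Q h h * (P.Q (fun i => g i * h i) (fun i => g i * h i) + P.Q (fun i => g i ^ 2 * h i) h) ≤
      2 * P.Q (fun i => g i * h i) h ^ 2 := by
  set F : ℤ → ℝ := fun i => g i * h i with hFdef
  have hF : Per P.m F := hg.mul hh
  have key : ∀ k : ℤ, P.Q F F - 2 * g k * P.Q F h + g k ^ 2 * P.Q h h ≤ 0 := by
    intro k
    have hper : Per P.m (fun i => F i - g k * h i) := fun i => by simp only [hF i, hh i]
    have := Q_nonpos hper k (by simp [hFdef])
    have e : P.Q (fun i => F i - g k * h i) (fun i => F i - g k * h i) =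
        P.Q F F - g k * P.Q F h - g k * P.Q h F + g k ^ 2 * P.Q h h := by
      simp only [Q, len_linear, mul_sum, ← sum_sub_distrib, ← sum_add_distrib]
      exact sum_congr rfl fun n _ => by ring
    rw [e, Q_comm hh hF] at this
    linarith
  have hsum : ∑ n ∈ range P.m,
      (h n * P.len h n) * (P.Q F F - 2 * g n * P.Q F h + g n ^ 2 * P.Q h h) ≤ 0 :=
    sum_nonpos fun n _ => mul_nonpos_of_nonneg_of_nonpos (mul_pos (hpos _) (hlen _)).le (key n)
  have e : ∑ n ∈ range P.m,
      (h n * P.len h n) * (P.Q F F - 2 * g n * P.Q F h + g n ^ 2 * P.Q h h) =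
      P.Q h h * (P.Q F F + P.Q (fun i => g i ^ 2 * h i) h) - 2 * P.Q F h ^ 2 := by
    have h1 : ∀ c : ℝ, c * P.Q h h = ∑ n ∈ range P.m, c * (h n * P.len h n) := fun c => mul_sum ..
    have h2 : ∀ c : ℝ, c * P.Q F h = ∑ n ∈ range P.m, c * (g n * h n * P.len h n) :=
      fun c => mul_sum ..
    have h3 : ∀ c : ℝ, c * P.Q (fun i => g i ^ 2 * h i) h =
        ∑ n ∈ range P.m, c * (g n ^ 2 * h n * P.len h n) := fun c => mul_sum ..
    rw [mul_add, mul_comm _ (P.Q F F), h1, h3, sq, ← mul_assoc, h2, ← sum_add_distrib,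
      ← sum_sub_distrib]
    exact sum_congr rfl fun n _ => by ring
  linarith

/-! ### The polygon -/

/-- unit vector at an angle -/
noncomputable def dir (a : ℝ) : ℝ × ℝ := (cos a, sin a)

/-- inner product on `ℝ × ℝ` -/
def ip (x y : ℝ × ℝ) : ℝ := x.1 * y.1 + x.2 * y.2

lemma ip_dir_dir (a b : ℝ) : ip (dir a) (dir b) = cos (a - b) := by
  rw [cos_sub]; rfl

variable (P) in
/-- The polygon. -/
def poly (h : ℤ → ℝ) : Set (ℝ × ℝ) := {x | ∀ i, |ip x (dir (P.θ i))| ≤ h i}

variable (P) in
/-- vertex -/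
noncomputable def vert (h : ℤ → ℝ) (i : ℤ) : ℝ × ℝ :=
  (h i * cos (P.θ i) - P.q h i * sin (P.θ i), h i * sin (P.θ i) + P.q h i * cos (P.θ i))

lemma vert_eq_prev (h : ℤ → ℝ) (i : ℤ) :
    P.vert h (i - 1) = (h i * cos (P.θ i) + P.p h (i - 1) * sin (P.θ i),
      h i * sin (P.θ i) - P.p h (i - 1) * cos (P.θ i)) := by
  obtain ⟨k, rfl⟩ : ∃ k, i = k + 1 := ⟨i - 1, by ring⟩
  rw [add_sub_cancel_right]
  have e : P.θ (k + 1) = P.θ k + P.Δ k := by rw [Δ]; ring
  have hs := (P.sin_Δ_pos k).ne'
  have hpy := sin_sq_add_cos_sq (P.Δ k)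
  refine Prod.ext ?_ ?_
  · simp only [vert, p, q, e, cos_add, sin_add]
    field_simp
    linear_combination (h (k + 1) * sin (P.θ k)) * hpy
  · simp only [vert, p, q, e, cos_add, sin_add]
    field_simp
    linear_combination (-(h (k + 1)) * cos (P.θ k)) * hpy

lemma ip_vert_sub (h : ℤ → ℝ) (i : ℤ) (a : ℝ) :
    ip (P.vert h i) (dir a) - ip (P.vert h (i - 1)) (dir a) = P.len h i * sin (a - P.θ i) := by
  rw [vert_eq_prev, sin_sub, len]
  simp only [vert, ip, dir]
  ring

lemma ip_vert_self (h : ℤ → ℝ) (i : ℤ) : ip (P.vert h i) (dir (P.θ i)) = h i := by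
  simp only [vert, ip, dir]
  linear_combination (h i) * sin_sq_add_cos_sq (P.θ i)

lemma ip_dir_add_pi (x : ℝ × ℝ) (a : ℝ) : ip x (dir (a + π)) = -ip x (dir a) := by
  simp only [ip, dir, cos_add_pi, sin_add_pi]
  ring

lemma vert_mem (hh : Per P.m h) (hlen : ∀ i, 0 ≤ P.len h i) (j i : ℤ) :
    |ip (P.vert h j) (dir (P.θ i))| ≤ h i := by
  have main : ∀ i, ip (P.vert h j) (dir (P.θ i)) ≤ h i := by
    have up : ∀ n : ℕ, n ≤ P.m → ip (P.vert h j) (dir (P.θ (j + n))) ≤ h (j + n) := by
      intro n hn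
      have tel : ip (P.vert h (j + n)) (dir (P.θ (j + n))) - ip (P.vert h j) (dir (P.θ (j + n))) =
          ∑ k ∈ range n, P.len h (j + k + 1) * sin (P.θ (j + n) - P.θ (j + k + 1)) := by
        have e := sum_range_sub (fun k : ℕ => ip (P.vert h (j + k)) (dir (P.θ (j + n)))) n
        simp only [Nat.cast_zero, add_zero, Nat.cast_add, Nat.cast_one, ← add_assoc] at e
        rw [← e]
        refine sum_congr rfl fun k _ => ?_
        rw [← ip_vert_sub, add_sub_cancel_right]
      rw [ip_vert_self] at tel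
      have hs : 0 ≤ ∑ k ∈ range n, P.len h (j + k + 1) * sin (P.θ (j + n) - P.θ (j + k + 1)) :=
        sum_nonneg fun k hk => by
          rw [Finset.mem_range] at hk
          refine mul_nonneg (hlen _) (sin_nonneg_of_nonneg_of_le_pi ?_ ?_)
          · exact sub_nonneg.2 (P.strictMono.monotone (by omega))
          · have : P.θ (j + n) ≤ P.θ (j + k + 1 + P.m) := P.strictMono.monotone (by omega)
            rw [P.period] at this
            linarith
      linarith
    have down : ∀ n : ℕ, n ≤ P.m → ip (P.vert h j) (dir (P.θ (j - n))) ≤ h (j - n) := by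
      intro n hn
      have tel : ip (P.vert h j) (dir (P.θ (j - n))) - ip (P.vert h (j - n)) (dir (P.θ (j - n))) =
          ∑ k ∈ range n, P.len h (j - n + k + 1) * sin (P.θ (j - n) - P.θ (j - n + k + 1)) := by
        have e := sum_range_sub (fun k : ℕ => ip (P.vert h (j - n + k)) (dir (P.θ (j - n)))) n
        simp only [Nat.cast_zero, add_zero, Nat.cast_add, Nat.cast_one, ← add_assoc,
          sub_add_cancel] at e
        rw [← e]
        refine sum_congr rfl fun k _ => ?_
        rw [← ip_vert_sub, add_sub_cancel_right]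
      rw [ip_vert_self] at tel
      have hs : ∑ k ∈ range n,
          P.len h (j - n + k + 1) * sin (P.θ (j - n) - P.θ (j - n + k + 1)) ≤ 0 :=
        sum_nonpos fun k hk => by
          rw [Finset.mem_range] at hk
          refine mul_nonpos_of_nonneg_of_nonpos (hlen _)
            (sin_nonpos_of_nonpos_of_neg_pi_le ?_ ?_)
          · exact sub_nonpos.2 (P.strictMono.monotone (by omega))
          · have : P.θ (j - n + k + 1) ≤ P.θ (j - n + P.m) := P.strictMono.monotone (by omega)
            rw [P.period] at this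
            linarith
      linarith
    intro i
    have h2 := P.two_le
    have key : ∀ k : ℤ, ip (P.vert h j) (dir (P.θ (k + P.m + P.m))) =
        ip (P.vert h j) (dir (P.θ k)) := fun k => by
      rw [P.period, P.period, ip_dir_add_pi, ip_dir_add_pi, neg_neg]
    have hfun : Function.Periodic (fun k => h k - ip (P.vert h j) (dir (P.θ k)))
        ((P.m : ℤ) + P.m) := fun k => by
      simp only [← add_assoc, key, hh (k + P.m), hh k]
    obtain ⟨y, hy, hyv⟩ := hfun.exists_mem_Ico (by omega) i (j - P.m)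
    simp only [Set.mem_Ico] at hy
    have : 0 ≤ h y - ip (P.vert h j) (dir (P.θ y)) := by
      rcases le_total j y with hjy | hjy
      · obtain ⟨n, rfl⟩ : ∃ n : ℕ, y = j + n := ⟨(y - j).toNat, by omega⟩
        linarith [up n (by omega)]
      · obtain ⟨n, rfl⟩ : ∃ n : ℕ, y = j - n := ⟨(j - y).toNat, by omega⟩
        linarith [down n (by omega)]
    linarith
  rw [abs_le]
  refine ⟨?_, main i⟩
  have := main (i + P.m)
  rw [P.period, ip_dir_add_pi, hh] at this
  linarith

variable (P) in
/-- angle of vertex -/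
noncomputable def ang (h : ℤ → ℝ) (i : ℤ) : ℝ := P.θ i + arctan (P.q h i / h i)

lemma cos_add_arctan (θ : ℝ) {c : ℝ} (hc : c ≠ 0) (t : ℝ) :
    cos (θ + arctan (t / c)) = cos (arctan (t / c)) / c * (c * cos θ - t * sin θ) ∧
    sin (θ + arctan (t / c)) = cos (arctan (t / c)) / c * (c * sin θ + t * cos θ) := by
  have h0 := (cos_arctan_pos (t / c)).ne'
  have e : sin (arctan (t / c)) = cos (arctan (t / c)) * (t / c) := by
    have := tan_arctan (t / c)
    rw [tan_eq_sin_div_cos, div_eq_iff h0] at this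
    linarith
  constructor
  · rw [cos_add, e]; field_simp
  · rw [sin_add, e]; field_simp

lemma ang_eq (hpos : ∀ i, 0 < h i) (i : ℤ) :
    P.ang h (i - 1) = P.θ i + arctan (-P.p h (i - 1) / h i) := by
  obtain ⟨a1, a2⟩ := cos_add_arctan (P.θ (i - 1)) (hpos (i - 1)).ne' (P.q h (i - 1))
  obtain ⟨b1, b2⟩ := cos_add_arctan (P.θ i) (hpos i).ne' (-P.p h (i - 1))
  set x := arctan (P.q h (i - 1) / h (i - 1)) with hx
  set y := arctan (-P.p h (i - 1) / h i) with hy
  obtain ⟨v1, v2⟩ := Prod.ext_iff.1 (vert_eq_prev (P := P) h i)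
  simp only [vert] at v1 v2
  rw [v1] at a1
  rw [v2] at a2
  rw [show h i * cos (P.θ i) - -P.p h (i - 1) * sin (P.θ i) =
    h i * cos (P.θ i) + P.p h (i - 1) * sin (P.θ i) by ring] at b1
  rw [show h i * sin (P.θ i) + -P.p h (i - 1) * cos (P.θ i) =
    h i * sin (P.θ i) - P.p h (i - 1) * cos (P.θ i) by ring] at b2
  set k1 := cos x / h (i - 1) with hk1d
  set k2 := cos y / h i with hk2d
  have hk1 : 0 < k1 := div_pos (cos_arctan_pos _) (hpos _)
  have hk2 : 0 < k2 := div_pos (cos_arctan_pos _) (hpos _)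
  set V1 := h i * cos (P.θ i) + P.p h (i - 1) * sin (P.θ i)
  set V2 := h i * sin (P.θ i) - P.p h (i - 1) * cos (P.θ i)
  have p1 := sin_sq_add_cos_sq (P.θ (i - 1) + x)
  have p2 := sin_sq_add_cos_sq (P.θ i + y)
  rw [a1, a2] at p1
  rw [b1, b2] at p2
  have hk : k1 = k2 := by
    have hV : 0 < V1 ^ 2 + V2 ^ 2 := by
      by_contra hc
      rw [not_lt] at hc
      linarith [mul_le_mul_of_nonneg_left hc (sq_nonneg k1), p1]
    have : k1 ^ 2 = k2 ^ 2 := by
      have : (k1 ^ 2 - k2 ^ 2) * (V1 ^ 2 + V2 ^ 2) = 0 := by linear_combination p1 - p2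
      rcases mul_eq_zero.1 this with h' | h'
      · linarith
      · exact absurd h' hV.ne'
    exact (sq_eq_sq₀ hk1.le hk2.le).1 this
  have hcos : cos (P.θ (i - 1) + x - (P.θ i + y)) = 1 := by
    rw [cos_sub, a1, a2, b1, b2, ← hk]
    linear_combination p1
  have hD := P.Δ_lt_pi (i - 1)
  have hD0 := P.Δ_pos (i - 1)
  simp only [Δ, sub_add_cancel] at hD hD0
  have hx1 := neg_pi_div_two_lt_arctan (P.q h (i - 1) / h (i - 1))
  have hx2 := arctan_lt_pi_div_two (P.q h (i - 1) / h (i - 1))
  have hy1 := neg_pi_div_two_lt_arctan (-P.p h (i - 1) / h i)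
  have hy2 := arctan_lt_pi_div_two (-P.p h (i - 1) / h i)
  rw [← hx] at hx1 hx2
  rw [← hy] at hy1 hy2
  have := (cos_eq_one_iff_of_lt_of_lt (by linarith [pi_pos]) (by linarith [pi_pos])).1 hcos
  rw [ang, ← hx]
  linarith

lemma ang_bounds (hpos : ∀ i, 0 < h i) (hlen : ∀ i, 0 < P.len h i) (i : ℤ) :
    P.θ i - π / 2 < P.ang h (i - 1) ∧ P.ang h (i - 1) < P.ang h i ∧
      P.ang h i < P.θ i + π / 2 := by
  refine ⟨?_, ?_, ?_⟩
  · rw [ang_eq hpos]
    linarith [neg_pi_div_two_lt_arctan (-P.p h (i - 1) / h i)]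
  · rw [ang_eq hpos, ang]
    refine add_lt_add_right (arctan_strictMono (div_lt_div_of_pos_right ?_ (hpos i))) _
    have := hlen i
    rw [len] at this
    linarith
  · rw [ang]
    linarith [arctan_lt_pi_div_two (P.q h i / h i)]

lemma mem_poly_iff (hh : Per P.m h) (hpos : ∀ i, 0 < h i) (hlen : ∀ i, 0 < P.len h i) (i : ℤ)
    {φ : ℝ} (hφ : φ ∈ Set.Icc (P.ang h (i - 1)) (P.ang h i)) {r : ℝ} (hr : 0 ≤ r) :
    (r * cos φ, r * sin φ) ∈ P.poly h ↔ r * cos (φ - P.θ i) ≤ h i := by
  obtain ⟨b1, b2, b3⟩ := ang_bounds hpos hlen i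
  have hc : 0 ≤ cos (φ - P.θ i) :=
    cos_nonneg_of_neg_pi_div_two_le_of_le (by linarith [hφ.1]) (by linarith [hφ.2])
  have e : ∀ a, ip (r * cos φ, r * sin φ) (dir a) = r * cos (φ - a) := fun a => by
    rw [cos_sub]; simp only [ip, dir]; ring
  constructor
  · intro hm
    have := hm i
    rw [e, abs_of_nonneg (mul_nonneg hr hc)] at this
    exact this
  intro hm k
  rw [e, abs_mul, abs_of_nonneg hr]
  -- the two endpoints
  have endp : ∀ α ∈ ({P.ang h (i - 1), P.ang h i} : Set ℝ),
      |cos (α - P.θ k)| * h i ≤ h k * cos (α - P.θ i) := by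
    have gen : ∀ j, ∀ α, α = P.ang h j → ip (P.vert h j) (dir (P.θ i)) = h i →
        |cos (α - P.θ k)| * h i ≤ h k * cos (α - P.θ i) := by
      intro j α hα hji
      obtain ⟨c1, c2⟩ := cos_add_arctan (P.θ j) (hpos j).ne' (P.q h j)
      set K := cos (arctan (P.q h j / h j)) / h j with hK
      have hK0 : 0 < K := div_pos (cos_arctan_pos _) (hpos j)
      have hval : ∀ a, cos (α - a) = K * ip (P.vert h j) (dir a) := fun a => by
        rw [hα, ang, cos_sub, c1, c2]; simp only [ip, dir, vert]; ring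
      rw [hval, hval, abs_mul, abs_of_pos hK0, hji]
      have := mul_le_mul_of_nonneg_left (vert_mem hh (fun n => (hlen n).le) j k) hK0.le
      nlinarith [hpos i, mul_le_mul_of_nonneg_right this (hpos i).le]
    rintro α (rfl | rfl)
    · refine gen (i - 1) _ rfl ?_
      rw [vert_eq_prev]
      simp only [ip, dir]
      linear_combination (h i) * sin_sq_add_cos_sq (P.θ i)
    · exact gen i _ rfl (ip_vert_self h i)
  -- interpolation
  set A := P.ang h (i - 1) with hA
  set B := P.ang h i with hB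
  have hs : 0 < sin (B - A) := sin_pos_of_pos_of_lt_pi (by linarith) (by linarith)
  have hsa : 0 ≤ sin (B - φ) :=
    sin_nonneg_of_nonneg_of_le_pi (by linarith [hφ.2]) (by linarith [hφ.1])
  have hsb : 0 ≤ sin (φ - A) :=
    sin_nonneg_of_nonneg_of_le_pi (by linarith [hφ.1]) (by linarith [hφ.2])
  have lin : ∀ a, sin (B - A) * cos (φ - a) =
      sin (B - φ) * cos (A - a) + sin (φ - A) * cos (B - a) := fun a => by
    simp only [sin_sub, cos_sub]
    ring
  have key : |cos (φ - P.θ k)| * h i ≤ h k * cos (φ - P.θ i) := by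
    refine le_of_mul_le_mul_left ?_ hs
    have hA' := mul_le_mul_of_nonneg_left (endp A (Or.inl rfl)) hsa
    have hB' := mul_le_mul_of_nonneg_left (endp B (Or.inr rfl)) hsb
    calc sin (B - A) * (|cos (φ - P.θ k)| * h i)
        = |sin (B - φ) * cos (A - P.θ k) + sin (φ - A) * cos (B - P.θ k)| * h i := by
          rw [← lin, abs_mul, abs_of_pos hs, mul_assoc]
      _ ≤ (sin (B - φ) * |cos (A - P.θ k)| + sin (φ - A) * |cos (B - P.θ k)|) * h i := by
          refine mul_le_mul_of_nonneg_right ((abs_add_le _ _).trans ?_) (hpos i).le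
          rw [abs_mul, abs_mul, abs_of_nonneg hsa, abs_of_nonneg hsb]
      _ ≤ sin (B - φ) * (h k * cos (A - P.θ i)) + sin (φ - A) * (h k * cos (B - P.θ i)) := by
          linarith
      _ = sin (B - A) * (h k * cos (φ - P.θ i)) := by
          linear_combination (-(h k)) * lin (P.θ i)
  refine le_of_mul_le_mul_right ?_ (hpos i)
  calc r * |cos (φ - P.θ k)| * h i = r * (|cos (φ - P.θ k)| * h i) := mul_assoc ..
    _ ≤ r * (h k * cos (φ - P.θ i)) := mul_le_mul_of_nonneg_left key hr
    _ = h k * (r * cos (φ - P.θ i)) := by ring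
    _ ≤ h k * h i := mul_le_mul_of_nonneg_left hm (hpos k).le

variable (P) in
/-- radial mass of the polygon in a direction -/
noncomputable def radial (h : ℤ → ℝ) (φ : ℝ) : ENNReal :=
  ∫⁻ r in Set.Ioi (0 : ℝ),
    ENNReal.ofReal r * (P.poly h).indicator 1 (r * cos φ, r * sin φ)

lemma measurableSet_poly (h : ℤ → ℝ) : MeasurableSet (P.poly h) := by
  rw [poly, Set.ofPred_forall]
  refine MeasurableSet.iInter fun i => measurableSet_le ?_ measurable_const
  unfold ip
  fun_prop

lemma radial_piece (hh : Per P.m h) (hpos : ∀ i, 0 < h i) (hlen : ∀ i, 0 < P.len h i) (i : ℤ) :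
    ∫⁻ φ in Set.Ioc (P.ang h (i - 1)) (P.ang h i), P.radial h φ =
      ENNReal.ofReal (h i * P.len h i / 2) := by
  obtain ⟨b1, b2, b3⟩ := ang_bounds hpos hlen i
  set A := P.ang h (i - 1) with hA
  set B := P.ang h i with hB
  have hcpos : ∀ φ ∈ Set.Icc A B, 0 < cos (φ - P.θ i) := fun φ hφ =>
    cos_pos_of_mem_Ioo ⟨by linarith [hφ.1], by linarith [hφ.2]⟩
  have hrad : ∀ φ ∈ Set.Ioc A B,
      P.radial h φ = ENNReal.ofReal (h i ^ 2 / 2 * (1 / cos (φ - P.θ i) ^ 2)) := by
    intro φ hφ
    have hφ' : φ ∈ Set.Icc A B := Set.Ioc_subset_Icc_self hφ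
    have hc := hcpos φ hφ'
    set ρ := h i / cos (φ - P.θ i) with hρ
    have hρ0 : 0 ≤ ρ := div_nonneg (hpos i).le hc.le
    rw [radial, show (fun r => ENNReal.ofReal r * (P.poly h).indicator (1 : ℝ × ℝ → ENNReal)
      (r * cos φ, r * sin φ)) = fun r => ENNReal.ofReal r * (P.poly h).indicator 1
      (r * cos φ, r * sin φ) from rfl]
    rw [setLIntegral_congr_fun measurableSet_Ioi (g := (Set.Ioc 0 ρ).indicator
      fun r => ENNReal.ofReal r) fun r hr => ?_]
    swap
    · have hr0 : (0 : ℝ) < r := hr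
      have := mem_poly_iff hh hpos hlen i hφ' hr0.le
      by_cases hle : r ≤ ρ
      · rw [Set.indicator_of_mem (this.2 (by rwa [hρ, le_div_iff₀ hc] at hle)),
          Set.indicator_of_mem (show r ∈ Set.Ioc 0 ρ from ⟨hr0, hle⟩)]
        simp
      · rw [Set.indicator_of_notMem (fun hm => hle (by rw [hρ, le_div_iff₀ hc]; exact this.1 hm)),
          Set.indicator_of_notMem (fun hm => hle hm.2)]
        simp
    rw [setLIntegral_indicator measurableSet_Ioc, Set.inter_eq_left.2 Set.Ioc_subset_Ioi_self,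
      ← ofReal_integral_eq_lintegral_ofReal, ← intervalIntegral.integral_of_le hρ0, integral_id]
    · congr 1
      rw [hρ]
      field_simp
      ring
    · exact (continuous_id.integrableOn_Ioc).integrable
    · exact (ae_restrict_iff' measurableSet_Ioc).2 (ae_of_all _ fun r hr => hr.1.le)
  rw [setLIntegral_congr_fun measurableSet_Ioc hrad]
  have hder : ∀ φ ∈ Set.uIcc A B, HasDerivAt (fun φ => h i ^ 2 / 2 * tan (φ - P.θ i))
      (h i ^ 2 / 2 * (1 / cos (φ - P.θ i) ^ 2)) φ := fun φ hφ => by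
    rw [Set.uIcc_of_le b2.le] at hφ
    exact ((hasDerivAt_tan (hcpos φ hφ).ne').comp_sub_const φ (P.θ i)).const_mul _
  have hcont : ContinuousOn (fun φ => h i ^ 2 / 2 * (1 / cos (φ - P.θ i) ^ 2)) (Set.uIcc A B) := by
    rw [Set.uIcc_of_le b2.le]
    exact continuousOn_const.mul (continuousOn_const.div (by fun_prop)
      fun φ hφ => (pow_ne_zero 2 (hcpos φ hφ).ne'))
  have hint := intervalIntegral.integral_eq_sub_of_hasDerivAt hder hcont.intervalIntegrable
  rw [intervalIntegral.integral_of_le b2.le] at hint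
  rw [← ofReal_integral_eq_lintegral_ofReal, hint]
  · congr 1
    rw [hA, ang_eq hpos, hB, ang, add_sub_cancel_left, add_sub_cancel_left, tan_arctan, tan_arctan,
      len]
    have := (hpos i).ne'
    field_simp
    ring
  · rw [Set.uIcc_of_le b2.le] at hcont
    exact (hcont.integrableOn_Icc).mono_set Set.Ioc_subset_Icc_self
  · exact ae_of_all _ fun φ => by positivity

lemma ang_period (hh : Per P.m h) (i : ℤ) : P.ang h (i + P.m) = P.ang h i + π := by
  rw [ang, ang, P.period, q_per hh, hh]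
  ring

/-- The area formula. -/
theorem volume_poly (hh : Per P.m h) (hpos : ∀ i, 0 < h i) (hlen : ∀ i, 0 < P.len h i) :
    volume (P.poly h) = ENNReal.ofReal (P.Q h h) := by
  have hmono : Monotone (P.ang h) := monotone_int_of_le_succ fun i => by
    have := (ang_bounds hpos hlen (i + 1)).2.1
    rw [add_sub_cancel_right] at this
    exact this.le
  have hsum : ∀ n : ℕ, ∫⁻ φ in Set.Ioc (P.ang h 0) (P.ang h n), P.radial h φ =
      ENNReal.ofReal (∑ k ∈ range n, h (k + 1) * P.len h (k + 1) / 2) := by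
    intro n
    induction n with
    | zero => simp
    | succ n ih =>
      rw [Nat.cast_add, Nat.cast_one, ← Set.Ioc_union_Ioc_eq_Ioc (hmono (by omega : (0 : ℤ) ≤ n))
        (hmono (by omega : (n : ℤ) ≤ n + 1)),
        lintegral_union measurableSet_Ioc (Set.Ioc_disjoint_Ioc_of_le le_rfl), ih]
      have := radial_piece hh hpos hlen ((n : ℤ) + 1)
      rw [add_sub_cancel_right] at this
      rw [this, sum_range_succ, ENNReal.ofReal_add
        (sum_nonneg fun k _ => (div_pos (mul_pos (hpos _) (hlen _)) two_pos).le)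
        (div_pos (mul_pos (hpos _) (hlen _)) two_pos).le]
  have hper : ∀ φ, P.radial h (φ + 2 * π) = P.radial h φ := fun φ => by
    simp only [radial, cos_add_two_pi, sin_add_two_pi]
  have h2m : P.ang h ((P.m + P.m : ℕ) : ℤ) = P.ang h 0 + 2 * π := by
    rw [Nat.cast_add, show ((P.m : ℤ) + P.m) = 0 + P.m + P.m by ring, ang_period hh,
      ang_period hh]
    ring
  have hcirc : ∫⁻ φ in Set.Ioc (P.ang h 0) (P.ang h 0 + 2 * π), P.radial h φ =
      ∫⁻ φ in Set.Ioc (-π) (-π + 2 * π), P.radial h φ := by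
    refine (isAddFundamentalDomain_Ioc two_pi_pos (P.ang h 0)).setLIntegral_eq
      (isAddFundamentalDomain_Ioc two_pi_pos (-π)) _ fun g φ => ?_
    obtain ⟨k, hk⟩ := AddSubgroup.mem_zmultiples_iff.1 g.2
    rw [AddSubgroup.vadd_def, vadd_eq_add, ← hk, zsmul_eq_mul, add_comm]
    simp only [radial, cos_add_int_mul_two_pi, sin_add_int_mul_two_pi]
  rw [← lintegral_indicator_one (measurableSet_poly h), ← lintegral_comp_polarCoord_symm]
  rw [polarCoord_target, Measure.volume_eq_prod, ← Measure.prod_restrict, lintegral_prod_symm]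
  swap
  · refine (Measurable.smul (measurable_fst.ennreal_ofReal) ?_).aemeasurable
    exact ((measurable_one.indicator (measurableSet_poly h))).comp
      continuous_polarCoord_symm.measurable
  calc ∫⁻ φ in Set.Ioo (-π) π, ∫⁻ r in Set.Ioi (0 : ℝ),
        ENNReal.ofReal r • (P.poly h).indicator 1 (polarCoord.symm (r, φ))
      = ∫⁻ φ in Set.Ioo (-π) π, P.radial h φ := by simp [radial, smul_eq_mul]
    _ = ∫⁻ φ in Set.Ioc (-π) (-π + 2 * π), P.radial h φ := by
        rw [show -π + 2 * π = π by ring]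
        exact setLIntegral_congr Ioo_ae_eq_Ioc
    _ = ENNReal.ofReal (∑ k ∈ range (P.m + P.m), h (k + 1) * P.len h (k + 1) / 2) := by
        rw [← hcirc, ← h2m, hsum]
    _ = ENNReal.ofReal (P.Q h h) := by
        congr 1
        have hP : Per P.m (fun i => h i * P.len h i / 2) := fun i => by
          simp only [hh i, len_per hh i]
        rw [sum_range_add]
        have e1 := Per.sum_shift hP 1
        have e2 := Per.sum_shift hP (1 + P.m)
        simp only [add_comm (1 : ℤ)] at e1
        have e3 : ∑ x ∈ range P.m, h (((P.m + x : ℕ) : ℤ) + 1) *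
            P.len h (((P.m + x : ℕ) : ℤ) + 1) / 2 =
            ∑ n ∈ range P.m, h n * P.len h n / 2 := by
          rw [← e2]
          refine sum_congr rfl fun x _ => ?_
          rw [show (((P.m + x : ℕ) : ℤ) + 1) = 1 + (P.m : ℤ) + x by push_cast; ring]
        rw [e3, e1, ← two_mul, Q, mul_sum]
        exact sum_congr rfl fun n _ => by ring

end Fan

end Vale.Agent.P227
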