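import Vale.Agent.P227.Slice

/-!
Induction: dimensions at most two, then one slicing step per common reflection.
-/

open Set MeasureTheory Matrix
open scoped ENNReal

namespace Vale.Agent.P227

open Fan (ip dir)

theorem dim_zero {l : ℝ} (hl0 : 0 < l) (hl1 : l < 1) (K L : Set (Fin 0 → ℝ)) :
    volume K ^ (1 - l) * volume L ^ l ≤ volume (logBody K L l) := by
  rcases K.eq_empty_or_nonempty with rfl | nK
  · simp [ENNReal.zero_rpow_of_pos (sub_pos.2 hl1)]
  rcases L.eq_empty_or_nonempty with rfl | nL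
  · simp [ENNReal.zero_rpow_of_pos hl0]
  have hu : ∀ A : Set (Fin 0 → ℝ), A.Nonempty → A = univ := fun A hA =>
    Subsingleton.eq_univ_of_nonempty hA
  have hM : (logBody K L l).Nonempty := ⟨0, fun a => by
    have : ∀ (P : Set (Fin 0 → ℝ)), 0 ≤ supp P a := fun P => by
      apply Real.sSup_nonneg
      rintro _ ⟨x, -, rfl⟩
      simp [dotProduct]
    rw [zero_dotProduct]
    exact mul_nonneg (Real.rpow_nonneg (this K) _) (Real.rpow_nonneg (this L) _)⟩
  rw [hu _ hM, hu K nK, hu L nL,
    ← ENNReal.rpow_add_of_nonneg _ _ (by linarith : (0:ℝ) ≤ 1 - l) hl0.le, sub_add_cancel,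
    ENNReal.rpow_one]

theorem dim_one {l : ℝ} (hl0 : 0 < l) (hl1 : l < 1) {K L : Set (Fin 1 → ℝ)}
    (hK : Good ∅ K) (hL : Good ∅ L) :
    volume K ^ (1 - l) * volume L ^ l ≤ volume (logBody K L l) := by
  rcases K.eq_empty_or_nonempty with rfl | nK
  · simp [ENNReal.zero_rpow_of_pos (sub_pos.2 hl1)]
  rcases L.eq_empty_or_nonempty with rfl | nL
  · simp [ENNReal.zero_rpow_of_pos hl0]
  set e := MeasurableEquiv.funUnique (Fin 1) ℝ with he
  have hp : MeasurePreserving e volume volume := volume_preserving_funUnique (Fin 1) ℝ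
  have hdot : ∀ x a : Fin 1 → ℝ, x ⬝ᵥ a = x 0 * a 0 := fun x a => by simp [dotProduct]
  have info : ∀ P : Set (Fin 1 → ℝ), Good ∅ P → P.Nonempty → ∃ t, 0 ≤ t ∧
      volume P ≤ ENNReal.ofReal (2 * t) ∧ ∀ a : Fin 1 → ℝ, |a 0| * t ≤ supp P a := by
    intro P hP hne
    set o : Fin 1 → ℝ := fun _ => 1
    obtain ⟨x, hx, hxm⟩ := hP.1.exists_isMaxOn hne (continuous_dot o).continuousOn
    have hx0 : ∀ y ∈ P, |y 0| ≤ x 0 := fun y hy => by
      have h1 := hxm hy
      have h2 := hxm (hP.2.1 y hy)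
      simp only [hdot, o, mul_one, mem_ofPred_eq, Pi.neg_apply] at h1 h2
      rw [abs_le]; constructor <;> linarith
    refine ⟨x 0, (abs_nonneg _).trans (hx0 x hx), ?_, fun a => ?_⟩
    · refine (measure_mono (t := e ⁻¹' Icc (-(x 0)) (x 0)) fun y hy => ?_).trans (le_of_eq ?_)
      · exact abs_le.1 (hx0 y hy)
      · rw [hp.measure_preimage measurableSet_Icc.nullMeasurableSet, Real.volume_Icc]
        congr 1
        ring
    · rcases le_total 0 (a 0) with ha | ha
      · have := le_supp hP.1 hx a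
        rw [hdot] at this
        rw [abs_of_nonneg ha]
        linarith
      · have := le_supp hP.1 (hP.2.1 x hx) a
        rw [hdot, Pi.neg_apply] at this
        rw [abs_of_nonpos ha]
        linarith
  obtain ⟨s, hs, vK, sK⟩ := info K hK nK
  obtain ⟨t, ht, vL, sL⟩ := info L hL nL
  set g := s ^ (1 - l) * t ^ l with hg
  have hg0 : 0 ≤ g := by positivity
  refine le_trans ?_ (measure_mono (s := e ⁻¹' Icc (-g) g) fun x hx a => ?_)
  · refine (mul_le_mul' (ENNReal.rpow_le_rpow vK (by linarith))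
      (ENNReal.rpow_le_rpow vL hl0.le)).trans (le_of_eq ?_)
    rw [hp.measure_preimage measurableSet_Icc.nullMeasurableSet, Real.volume_Icc,
      ENNReal.ofReal_rpow_of_nonneg (by positivity) (by linarith),
      ENNReal.ofReal_rpow_of_nonneg (by positivity) hl0.le, ← ENNReal.ofReal_mul (by positivity)]
    congr 1
    rw [Real.mul_rpow two_pos.le hs, Real.mul_rpow two_pos.le ht, mul_mul_mul_comm,
      ← Real.rpow_add two_pos, sub_add_cancel, Real.rpow_one, ← hg]
    ring
  · have hx' : |x 0| ≤ g := abs_le.2 hx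
    rw [hdot]
    calc x 0 * a 0 ≤ |x 0| * |a 0| := (le_abs_self _).trans_eq (abs_mul _ _)
      _ ≤ g * |a 0| := mul_le_mul_of_nonneg_right hx' (abs_nonneg _)
      _ = (|a 0| * s) ^ (1 - l) * (|a 0| * t) ^ l := by
          rw [Real.mul_rpow (abs_nonneg _) hs, Real.mul_rpow (abs_nonneg _) ht, mul_mul_mul_comm,
            ← Real.rpow_add_of_nonneg (abs_nonneg _) (by linarith) hl0.le, sub_add_cancel,
            Real.rpow_one, ← hg, mul_comm]
      _ ≤ _ := mul_le_mul (Real.rpow_le_rpow (by positivity) (sK a) (by linarith))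
          (Real.rpow_le_rpow (by positivity) (sL a) hl0.le) (by positivity)
          (Real.rpow_nonneg ((mul_nonneg (abs_nonneg _) hs).trans (sK a)) _)

theorem dim_two {l : ℝ} (hl0 : 0 < l) (hl1 : l < 1) {K L : Set (Fin 2 → ℝ)}
    (hK : Good ∅ K) (hL : Good ∅ L) :
    volume K ^ (1 - l) * volume L ^ l ≤ volume (logBody K L l) := by
  set e := MeasurableEquiv.finTwoArrow (α := ℝ) with he
  have hp : MeasurePreserving e volume volume := volume_preserving_finTwoArrow ℝ
  have he' : ∀ x, e x = (x 0, x 1) := fun x => rfl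
  have hc : Continuous e := by
    rw [show (e : (Fin 2 → ℝ) → ℝ × ℝ) = fun x => (x 0, x 1) from funext he']; fun_prop
  have hv : ∀ P : Set (Fin 2 → ℝ), IsCompact P → volume (e '' P) = volume P := fun P hP => by
    rw [← hp.measure_preimage (hP.image hc).measurableSet.nullMeasurableSet,
      e.preimage_image]
  have hsym : ∀ P : Set (Fin 2 → ℝ), Good ∅ P → ∀ y ∈ e '' P, -y ∈ e '' P := by
    rintro P hP _ ⟨x, hx, rfl⟩
    exact ⟨-x, hP.2.1 x hx, rfl⟩
  have hdot : ∀ x a : Fin 2 → ℝ, x ⬝ᵥ a = ip (e x) (a 0, a 1) := fun x a => by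
    simp [dotProduct, Fin.sum_univ_two, he', ip]
  have hsupp : ∀ (P : Set (Fin 2 → ℝ)) a, supp P a = supp2 (e '' P) (a 0, a 1) := fun P a => by
    simp only [supp, supp2, image_image, hdot]
  have h := logBM_plane (hK.1.image hc) (hL.1.image hc) (hsym K hK) (hsym L hL) hl0 hl1
  rw [hv K hK.1, hv L hL.1] at h
  refine h.trans (le_of_eq ?_)
  rw [← hp.measure_preimage_emb e.measurableEmbedding]
  congr 1
  ext x
  simp only [logBody2, logBody, mem_preimage, mem_ofPred_eq, hdot, hsupp]
  exact ⟨fun h a => h _, fun h b => by simpa [he'] using h ![b.1, b.2]⟩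

theorem logBM_reflections {l : ℝ} (hl0 : 0 < l) (hl1 : l < 1) :
    ∀ (n : ℕ) (S : Finset (Fin n)), n ≤ S.card + 2 → ∀ K L : Set (Fin n → ℝ), Good S K → Good S L →
      volume K ^ (1 - l) * volume L ^ l ≤ volume (logBody K L l) := by
  intro n
  induction n with
  | zero => exact fun S _ K L _ _ => dim_zero hl0 hl1 K L
  | succ m ih =>
    intro S hS K L hK hL
    have forget : ∀ (P : Set (Fin (m + 1) → ℝ)), Good S P → Good ∅ P := fun P hP =>
      ⟨hP.1, hP.2.1, fun i hi => absurd hi (Finset.notMem_empty i)⟩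
    rcases Nat.lt_or_ge m 2 with hm | hm
    · interval_cases m
      · exact dim_one hl0 hl1 (forget K hK) (forget L hL)
      · exact dim_two hl0 hl1 (forget K hK) (forget L hL)
    obtain ⟨i, hi⟩ := Finset.card_pos.1 (show 0 < S.card by omega)
    refine step hl0 hl1 hi hK hL (ih _ ?_)
    have hsub : S ⊆ insert i
        ((Finset.univ.filter fun j => i.succAbove j ∈ S).image i.succAbove) := by
      intro k hk
      rcases Fin.eq_self_or_eq_succAbove i k with rfl | ⟨j, rfl⟩
      · exact Finset.mem_insert_self _ _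
      · exact Finset.mem_insert_of_mem
          (Finset.mem_image_of_mem _ (Finset.mem_filter.2 ⟨Finset.mem_univ _, hk⟩))
    have h1 := (Finset.card_le_card hsub).trans (Finset.card_insert_le _ _)
    have h2 := Finset.card_image_le (f := i.succAbove)
      (s := Finset.univ.filter fun j => i.succAbove j ∈ S)
    omega

end Vale.Agent.P227
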