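import Mathlib

/-!
The one-dimensional Prékopa-Leindler inequality and its multiplicative form on the half line.
-/

open MeasureTheory Set
open scoped ENNReal Pointwise

namespace Vale.Agent.P227

theorem bm_line {l : ℝ} (hl0 : 0 < l) (hl1 : l < 1) {A B C : Set ℝ} (hA : MeasurableSet A)
    (hB : MeasurableSet B) (nA : A.Nonempty) (nB : B.Nonempty)
    (h : ∀ a ∈ A, ∀ b ∈ B, (1 - l) * a + l * b ∈ C) :
    ENNReal.ofReal (1 - l) * volume A + ENNReal.ofReal l * volume B ≤ volume C := by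
  have key : ∀ P Q : Set ℝ, IsCompact P → IsCompact Q → P.Nonempty → Q.Nonempty → P ⊆ A → Q ⊆ B →
      ENNReal.ofReal (1 - l) * volume P + ENNReal.ofReal l * volume Q ≤ volume C := by
    intro P Q hP hQ nP nQ sP sQ
    obtain ⟨p, hp, hpmax⟩ := hP.exists_isGreatest nP
    obtain ⟨q, hq, hqmin⟩ := hQ.exists_isLeast nQ
    set U := (fun x => (1 - l) * x + l * q) '' P with hU
    set V := (fun x => (1 - l) * p + l * x) '' Q with hV
    have vU : volume U = ENNReal.ofReal (1 - l) * volume P := by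
      rw [hU, show (fun x => (1 - l) * x + l * q) '' P =
        (fun x => x + l * q) '' ((1 - l) • P) by
          rw [← image_smul, image_image]; simp [smul_eq_mul],
        image_add_right, measure_preimage_add_right, Measure.addHaar_smul_of_nonneg volume (by linarith : (0:ℝ) ≤ 1 - l)]
      simp
    have vV : volume V = ENNReal.ofReal l * volume Q := by
      rw [hV, show (fun x => (1 - l) * p + l * x) '' Q =
        (fun x => (1 - l) * p + x) '' (l • Q) by
          rw [← image_smul, image_image]; simp [smul_eq_mul],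
        image_add_left, measure_preimage_add, Measure.addHaar_smul_of_nonneg volume hl0.le]
      simp
    have hUC : U ∪ V ⊆ C := by
      rintro y (⟨x, hx, rfl⟩ | ⟨x, hx, rfl⟩)
      · exact h x (sP hx) q (sQ hq)
      · exact h p (sP hp) x (sQ hx)
    have hint : U ∩ V ⊆ {(1 - l) * p + l * q} := by
      rintro y ⟨⟨x, hx, rfl⟩, ⟨z, hz, e⟩⟩
      have h1 := mul_le_mul_of_nonneg_left (hpmax hx) (show (0 : ℝ) ≤ 1 - l by linarith)
      have h2 := mul_le_mul_of_nonneg_left (hqmin hz) hl0.le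
      simp only at e
      simp only [mem_singleton_iff]
      linarith
    have hzero : volume (U ∩ V) = 0 := measure_mono_null hint (by simp)
    have hVm : MeasurableSet V := (hQ.image (by fun_prop)).measurableSet
    rw [← vU, ← vV, ← measure_union_add_inter U hVm, hzero, add_zero]
    exact measure_mono hUC
  obtain ⟨a₀, ha₀⟩ := nA
  obtain ⟨b₀, hb₀⟩ := nB
  rw [hA.measure_eq_iSup_isCompact, hB.measure_eq_iSup_isCompact, ENNReal.mul_iSup,
    ENNReal.mul_iSup]
  refine ENNReal.iSup_add_iSup_le fun P Q => ?_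
  by_cases hP : P ⊆ A ∧ IsCompact P <;> by_cases hQ : Q ⊆ B ∧ IsCompact Q
  · refine le_trans ?_ (key _ _ (hP.2.insert a₀) (hQ.2.insert b₀) (insert_nonempty _ _)
      (insert_nonempty _ _) (insert_subset ha₀ hP.1) (insert_subset hb₀ hQ.1))
    exact add_le_add
      (mul_le_mul_right (iSup₂_le fun _ _ => measure_mono (subset_insert _ _)) _)
      (mul_le_mul_right (iSup₂_le fun _ _ => measure_mono (subset_insert _ _)) _)
  · refine le_trans ?_ (key _ _ (hP.2.insert a₀) isCompact_singleton (insert_nonempty _ _)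
      (singleton_nonempty b₀) (insert_subset ha₀ hP.1) (singleton_subset_iff.2 hb₀))
    exact add_le_add
      (mul_le_mul_right (iSup₂_le fun _ _ => measure_mono (subset_insert _ _)) _)
      (mul_le_mul_right (iSup₂_le fun h1 h2 => absurd ⟨h1, h2⟩ hQ) _)
  · refine le_trans ?_ (key _ _ isCompact_singleton (hQ.2.insert b₀) (singleton_nonempty a₀)
      (insert_nonempty _ _) (singleton_subset_iff.2 ha₀) (insert_subset hb₀ hQ.1))
    exact add_le_add
      (mul_le_mul_right (iSup₂_le fun h1 h2 => absurd ⟨h1, h2⟩ hP) _)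
      (mul_le_mul_right (iSup₂_le fun _ _ => measure_mono (subset_insert _ _)) _)
  · refine le_trans ?_ (key _ _ isCompact_singleton isCompact_singleton (singleton_nonempty a₀)
      (singleton_nonempty b₀) (singleton_subset_iff.2 ha₀) (singleton_subset_iff.2 hb₀))
    exact add_le_add
      (mul_le_mul_right (iSup₂_le fun h1 h2 => absurd ⟨h1, h2⟩ hP) _)
      (mul_le_mul_right (iSup₂_le fun h1 h2 => absurd ⟨h1, h2⟩ hQ) _)

lemma geom_le_arith {l : ℝ} (hl0 : 0 < l) (hl1 : l < 1) (X Y : ℝ≥0∞) :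
    X ^ (1 - l) * Y ^ l ≤ ENNReal.ofReal (1 - l) * X + ENNReal.ofReal l * Y := by
  rcases eq_or_ne X ⊤ with rfl | hX
  · simp [ENNReal.mul_top, hl1]
  rcases eq_or_ne Y ⊤ with rfl | hY
  · simp [ENNReal.mul_top, hl0]
  obtain ⟨x, hx, rfl⟩ : ∃ x, 0 ≤ x ∧ X = ENNReal.ofReal x :=
    ⟨X.toReal, ENNReal.toReal_nonneg, (ENNReal.ofReal_toReal hX).symm⟩
  obtain ⟨y, hy, rfl⟩ : ∃ y, 0 ≤ y ∧ Y = ENNReal.ofReal y :=
    ⟨Y.toReal, ENNReal.toReal_nonneg, (ENNReal.ofReal_toReal hY).symm⟩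
  rw [ENNReal.ofReal_rpow_of_nonneg hx (by linarith), ENNReal.ofReal_rpow_of_nonneg hy hl0.le,
    ← ENNReal.ofReal_mul (by positivity), ← ENNReal.ofReal_mul (by linarith),
    ← ENNReal.ofReal_mul hl0.le, ← ENNReal.ofReal_add
      (mul_nonneg (by linarith) hx) (mul_nonneg hl0.le hy)]
  exact ENNReal.ofReal_le_ofReal
    (Real.geom_mean_le_arith_mean2_weighted (by linarith) hl0.le hx hy (by ring))

/-- Prékopa-Leindler on the line for bounded functions. -/
theorem pl_line {l : ℝ} (hl0 : 0 < l) (hl1 : l < 1) {F G H : ℝ → ℝ} (hF : Measurable F)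
    (hG : Measurable G) (hH : Measurable H) (F0 : ∀ x, 0 ≤ F x) (G0 : ∀ x, 0 ≤ G x)
    (H0 : ∀ x, 0 ≤ H x) {M : ℝ} (FM : ∀ x, F x ≤ M) (GM : ∀ x, G x ≤ M)
    (hle : ∀ a b, F a ^ (1 - l) * G b ^ l ≤ H ((1 - l) * a + l * b)) :
    (∫⁻ x, ENNReal.ofReal (F x)) ^ (1 - l) * (∫⁻ x, ENNReal.ofReal (G x)) ^ l ≤
      ∫⁻ x, ENNReal.ofReal (H x) := by
  set a := ⨆ x, F x
  set b := ⨆ x, G x
  have bF : BddAbove (range F) := ⟨M, by rintro _ ⟨x, rfl⟩; exact FM x⟩
  have bG : BddAbove (range G) := ⟨M, by rintro _ ⟨x, rfl⟩; exact GM x⟩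
  have Fa : ∀ x, F x ≤ a := le_ciSup bF
  have Gb : ∀ x, G x ≤ b := le_ciSup bG
  by_cases ha : 0 < a
  swap
  · have : ∀ x, F x = 0 := fun x => le_antisymm ((Fa x).trans (not_lt.1 ha)) (F0 x)
    simp [this, ENNReal.zero_rpow_of_pos (sub_pos.2 hl1)]
  by_cases hb : 0 < b
  swap
  · have : ∀ x, G x = 0 := fun x => le_antisymm ((Gb x).trans (not_lt.1 hb)) (G0 x)
    simp [this, ENNReal.zero_rpow_of_pos hl0]
  set N := a ^ (1 - l) * b ^ l with hN
  have hN0 : 0 < N := mul_pos (Real.rpow_pos_of_pos ha _) (Real.rpow_pos_of_pos hb _)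
  have layer : ∀ (φ : ℝ → ℝ), Measurable φ → (∀ x, 0 ≤ φ x) → ∀ {c : ℝ}, 0 < c →
      (∫⁻ x, ENNReal.ofReal (φ x)) =
        ENNReal.ofReal c * ∫⁻ r in Ioi (0 : ℝ), volume {x | r < φ x / c} := by
    intro φ hφ h0 c hc
    rw [← lintegral_eq_lintegral_meas_lt volume (ae_of_all _ fun x => div_nonneg (h0 x) hc.le)
      (hφ.div_const c).aemeasurable, ← lintegral_const_mul' _ _ ENNReal.ofReal_ne_top]
    refine lintegral_congr fun x => ?_
    rw [← ENNReal.ofReal_mul hc.le, mul_div_cancel₀ _ hc.ne']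
  rw [layer F hF F0 ha, layer G hG G0 hb, layer H hH H0 hN0,
    ENNReal.mul_rpow_of_nonneg _ _ (by linarith : (0:ℝ) ≤ 1 - l),
    ENNReal.mul_rpow_of_nonneg _ _ hl0.le, mul_mul_mul_comm,
    ENNReal.ofReal_rpow_of_nonneg ha.le (by linarith), ENNReal.ofReal_rpow_of_nonneg hb.le hl0.le,
    ← ENNReal.ofReal_mul (Real.rpow_nonneg ha.le _), ← hN]
  refine mul_le_mul_right ((geom_le_arith hl0 hl1 _ _).trans ?_) _
  have anti : ∀ (u : ℝ → ℝ), Measurable (fun t => volume {x | t < u x}) := fun u =>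
    Antitone.measurable fun s t hst => measure_mono fun x hx => lt_of_le_of_lt hst hx
  rw [← lintegral_const_mul' _ _ ENNReal.ofReal_ne_top,
    ← lintegral_const_mul' _ _ ENNReal.ofReal_ne_top,
    ← lintegral_add_left ((anti _).const_mul _)]
  refine setLIntegral_mono (anti _) fun r hr => ?_
  rcases le_or_gt 1 r with r1 | r1
  · have eF : {x | r < F x / a} = (∅ : Set ℝ) := by
      ext x
      simpa using ((div_le_one ha).2 (Fa x)).trans r1
    have eG : {x | r < G x / b} = (∅ : Set ℝ) := by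
      ext x
      simpa using ((div_le_one hb).2 (Gb x)).trans r1
    simp [eF, eG]
  obtain ⟨x₀, hx₀⟩ := exists_lt_of_lt_ciSup (show r * a < ⨆ x, F x from
    mul_lt_of_lt_one_left ha r1)
  obtain ⟨y₀, hy₀⟩ := exists_lt_of_lt_ciSup (show r * b < ⨆ x, G x from
    mul_lt_of_lt_one_left hb r1)
  refine bm_line hl0 hl1 (measurableSet_lt measurable_const (hF.div_const a))
    (measurableSet_lt measurable_const (hG.div_const b))
    ⟨x₀, by rw [mem_ofPred_eq, lt_div_iff₀ ha]; exact hx₀⟩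
    ⟨y₀, by rw [mem_ofPred_eq, lt_div_iff₀ hb]; exact hy₀⟩ fun x hx y hy => ?_
  have hr0 : (0 : ℝ) < r := hr
  simp only [mem_ofPred_eq] at hx hy ⊢
  rw [lt_div_iff₀ hN0]
  rw [lt_div_iff₀ ha] at hx
  rw [lt_div_iff₀ hb] at hy
  calc r * N = (r * a) ^ (1 - l) * (r * b) ^ l := by
        rw [Real.mul_rpow hr0.le ha.le, Real.mul_rpow hr0.le hb.le, mul_mul_mul_comm,
          ← Real.rpow_add hr0, sub_add_cancel, Real.rpow_one, hN]
    _ < F x ^ (1 - l) * G y ^ l := mul_lt_mul'' (Real.rpow_lt_rpow (by positivity) hx (by linarith))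
        (Real.rpow_lt_rpow (by positivity) hy hl0) (Real.rpow_nonneg (by positivity) _)
        (Real.rpow_nonneg (by positivity) _)
    _ ≤ _ := hle x y

/-- The multiplicative Prékopa-Leindler inequality on the half line. -/
theorem pl_mult {l : ℝ} (hl0 : 0 < l) (hl1 : l < 1) {f g m : ℝ → ℝ≥0∞} (hf : Measurable f)
    (hg : Measurable g) (hm : Measurable m) {V : ℝ≥0∞} (hV : V ≠ ⊤) (fV : ∀ z, f z ≤ V)
    (gV : ∀ z, g z ≤ V) {R : ℝ} (fR : ∀ z, R < z → f z = 0) (gR : ∀ z, R < z → g z = 0)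
    (hle : ∀ z w : ℝ, 0 < z → 0 < w → f z ^ (1 - l) * g w ^ l ≤ m (z ^ (1 - l) * w ^ l)) :
    (∫⁻ z in Ioi 0, f z) ^ (1 - l) * (∫⁻ z in Ioi 0, g z) ^ l ≤ ∫⁻ z in Ioi 0, m z := by
  have subst : ∀ φ : ℝ → ℝ≥0∞, ∫⁻ z in Ioi 0, φ z =
      ∫⁻ s, ENNReal.ofReal (Real.exp s) * φ (Real.exp s) := fun φ => by
    have := lintegral_image_eq_lintegral_abs_deriv_mul MeasurableSet.univ
      (fun x _ => (Real.hasDerivAt_exp x).hasDerivWithinAt) Real.exp_injective.injOn φ
    rw [image_univ, Real.range_exp, setLIntegral_univ] at this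
    simpa [abs_of_pos (Real.exp_pos _)] using this
  set tr : (ℝ → ℝ≥0∞) → ℝ → ℝ := fun φ s => (φ (Real.exp s)).toReal * Real.exp s with htr
  have trm : ∀ φ, Measurable φ → Measurable (tr φ) := fun φ hφ =>
    ((hφ.comp Real.measurable_exp).ennreal_toReal).mul Real.measurable_exp
  have trv : ∀ φ, (∀ z, φ z ≤ V) → ∀ s,
      ENNReal.ofReal (tr φ s) = ENNReal.ofReal (Real.exp s) * φ (Real.exp s) := fun φ h s => by
    rw [htr, ENNReal.ofReal_mul ENNReal.toReal_nonneg,
      ENNReal.ofReal_toReal (ne_top_of_le_ne_top hV (h _)), mul_comm]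
  set M := V.toReal * max R 0 with hM
  have trb : ∀ φ : ℝ → ℝ≥0∞, (∀ z, φ z ≤ V) → (∀ z, R < z → φ z = 0) → ∀ s, tr φ s ≤ M := by
    intro φ h hR s
    rcases lt_or_ge R (Real.exp s) with hs | hs
    · simp [htr, hR _ hs, hM]; positivity
    · exact mul_le_mul (ENNReal.toReal_mono hV (h _)) (hs.trans (le_max_left _ _))
        (Real.exp_pos _).le ENNReal.toReal_nonneg
  set m' : ℝ → ℝ≥0∞ := fun z => min (m z) V with hm'
  have key := pl_line hl0 hl1 (trm f hf) (trm g hg) (trm m' (hm.min measurable_const))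
    (fun _ => by positivity) (fun _ => by positivity) (fun _ => by positivity)
    (trb f fV fR) (trb g gV gR) (fun a b => ?_)
  · simp only [trv f fV, trv g gV, trv m' (fun z => min_le_right _ _)] at key
    rw [← subst, ← subst, ← subst] at key
    exact key.trans (setLIntegral_mono hm fun z _ => min_le_left _ _)
  have hz := hle (Real.exp a) (Real.exp b) (Real.exp_pos _) (Real.exp_pos _)
  have e : Real.exp a ^ (1 - l) * Real.exp b ^ l = Real.exp ((1 - l) * a + l * b) := by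
    rw [← Real.exp_mul, ← Real.exp_mul, ← Real.exp_add]; congr 1; ring
  rw [e] at hz
  have hV' : f (Real.exp a) ^ (1 - l) * g (Real.exp b) ^ l ≤ V := by
    refine (mul_le_mul' (ENNReal.rpow_le_rpow (fV _) (by linarith))
      (ENNReal.rpow_le_rpow (gV _) hl0.le)).trans ?_
    rw [← ENNReal.rpow_add_of_nonneg _ _ (by linarith) hl0.le, sub_add_cancel, ENNReal.rpow_one]
  have h1 := ENNReal.toReal_mono (ne_top_of_le_ne_top hV (min_le_right _ V)) (le_min hz hV')
  rw [ENNReal.toReal_mul, ← ENNReal.toReal_rpow, ← ENNReal.toReal_rpow] at h1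
  simp only [htr, hm']
  rw [Real.mul_rpow ENNReal.toReal_nonneg (Real.exp_pos _).le,
    Real.mul_rpow ENNReal.toReal_nonneg (Real.exp_pos _).le, mul_mul_mul_comm, e]
  exact mul_le_mul_of_nonneg_right h1 (Real.exp_pos _).le

end Vale.Agent.P227
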