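import Vale.Agent.P227.Area

/-!
The logarithmic Brunn-Minkowski inequality in the plane.

For finitely many directions the area of the intersection of strips is log-concave in the
logarithms of the widths: near each time it is majorised, with equality at that time, by the area
formula of the polygon of the active directions.
-/

open Real Set MeasureTheory Filter Topology
open scoped Pointwise

namespace Vale.Agent.P227

open Fan (ip dir)

/-- Intersection of the strips in directions `D`. -/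
def strips (D : Finset ℝ) (H : ℝ → ℝ) : Set (ℝ × ℝ) := {x | ∀ a ∈ D, |ip x (dir a)| ≤ H a}

lemma abs_ip_shift (x : ℝ × ℝ) (a : ℝ) (k : ℤ) :
    |ip x (dir (a + k * π))| = |ip x (dir a)| := by
  simp only [ip, dir, cos_add_int_mul_pi, sin_add_int_mul_pi]
  rw [show x.1 * ((-1 : ℝ) ^ k * cos a) + x.2 * ((-1) ^ k * sin a) =
    (-1) ^ k * (x.1 * cos a + x.2 * sin a) by ring, abs_mul, abs_zpow, abs_neg, abs_one, one_zpow,
    one_mul]

/-- Directions of a finite set, repeated modulo `π`. -/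
noncomputable def rep (D : Finset ℝ) (hD : 2 ≤ D.card) (i : ℤ) : ℝ :=
  D.orderEmbOfFin rfl ⟨(i % (D.card : ℤ)).toNat, by
    have h1 := Int.emod_nonneg i (show (D.card : ℤ) ≠ 0 by omega)
    have h2 := Int.emod_lt_of_pos i (show (0 : ℤ) < D.card by omega)
    omega⟩

lemma rep_mem (D : Finset ℝ) (hD : 2 ≤ D.card) (i : ℤ) : rep D hD i ∈ D :=
  D.orderEmbOfFin_mem rfl _

lemma ediv_emod_add (i : ℤ) {m : ℕ} (hm : 0 < m) :
    (i + m) / (m : ℤ) = i / m + 1 ∧ (i + m) % (m : ℤ) = i % m := by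
  have h := Int.emod_add_mul_ediv i m
  exact (Int.ediv_emod_unique (by omega)).2 ⟨by linarith,
    Int.emod_nonneg _ (by omega), Int.emod_lt_of_pos _ (by omega)⟩

/-- The fan of a finite set of directions in `[0, π)`. -/
noncomputable def mkFan (D : Finset ℝ) (hD : 2 ≤ D.card) (hI : ∀ a ∈ D, a ∈ Set.Ico (0 : ℝ) π) :
    Fan where
  m := D.card
  θ i := rep D hD i + ((i / (D.card : ℤ) : ℤ) : ℝ) * π
  two_le := hD
  period i := by
    obtain ⟨h1, h2⟩ := ediv_emod_add i (show 0 < D.card by omega)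
    simp only [rep, h1, h2]
    push_cast
    ring
  step i := by
    have hm : (0 : ℤ) < D.card := by omega
    have h := Int.emod_add_mul_ediv i D.card
    have h1 := Int.emod_nonneg i (show (D.card : ℤ) ≠ 0 by omega)
    have h2 := Int.emod_lt_of_pos i hm
    rcases lt_or_ge (i % (D.card : ℤ) + 1) D.card with hlt | hge
    · obtain ⟨e1, e2⟩ := (Int.ediv_emod_unique (a := i + 1) (r := i % D.card + 1)
        (q := i / D.card) hm).2 ⟨by linarith, by omega, hlt⟩
      simp only [rep, e1, e2, add_lt_add_iff_right]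
      refine (D.orderEmbOfFin rfl).strictMono ?_
      rw [Fin.mk_lt_mk]
      omega
    · obtain ⟨e1, e2⟩ := (Int.ediv_emod_unique (a := i + 1) (r := 0)
        (q := i / D.card + 1) hm).2 ⟨by
          have : i % (D.card : ℤ) = D.card - 1 := by omega
          linarith, le_rfl, hm⟩
      simp only [e1]
      have a1 := (hI _ (rep_mem D hD i)).2
      have a2 := (hI _ (rep_mem D hD (i + 1))).1
      push_cast
      linarith

lemma poly_mkFan (D : Finset ℝ) (hD : 2 ≤ D.card) (hI : ∀ a ∈ D, a ∈ Set.Ico (0 : ℝ) π)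
    (H : ℝ → ℝ) : (mkFan D hD hI).poly (fun i => H (rep D hD i)) = strips D H := by
  have key : ∀ (x : ℝ × ℝ) i,
      |ip x (dir ((mkFan D hD hI).θ i))| = |ip x (dir (rep D hD i))| :=
    fun x i => abs_ip_shift x _ _
  ext x
  simp only [Fan.poly, strips, mem_ofPred_eq, key]
  constructor
  · intro hx a ha
    have : a ∈ Set.range (D.orderEmbOfFin (rfl : D.card = D.card)) := by
      rw [D.range_orderEmbOfFin rfl]; exact ha
    obtain ⟨k, rfl⟩ := this
    have := hx (k : ℕ)
    rw [show rep D hD ((k : ℕ) : ℤ) = D.orderEmbOfFin rfl k from by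
      unfold rep
      congr 1
      ext
      simp only
      rw [Int.emod_eq_of_lt (Int.natCast_nonneg _) (by exact_mod_cast k.2)]
      simp] at this
    exact this
  · exact fun hx i => hx _ (rep_mem D hD i)

lemma per_rep (D : Finset ℝ) (hD : 2 ≤ D.card) (hI : ∀ a ∈ D, a ∈ Set.Ico (0 : ℝ) π) (H : ℝ → ℝ) :
    Per (mkFan D hD hI).m (fun i => H (rep D hD i)) := fun i => by
  obtain ⟨-, h2⟩ := ediv_emod_add i (show 0 < D.card by omega)
  simp only [mkFan, rep, h2]

/-- One can drop redundant directions. -/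
theorem exists_active (D : Finset ℝ) (hD : 2 ≤ D.card) (hI : ∀ a ∈ D, a ∈ Set.Ico (0 : ℝ) π)
    (H : ℝ → ℝ) (hH : ∀ a ∈ D, 0 < H a) :
    ∃ D' ⊆ D, ∃ (hD' : 2 ≤ D'.card) (hI' : ∀ a ∈ D', a ∈ Set.Ico (0 : ℝ) π),
      strips D' H = strips D H ∧
        ∀ i, 0 < (mkFan D' hD' hI').len (fun i => H (rep D' hD' i)) i := by
  induction D using Finset.strongInduction with
  | _ D ih =>
    by_cases hall : ∀ i, 0 < (mkFan D hD hI).len (fun i => H (rep D hD i)) i
    · exact ⟨D, subset_refl D, hD, hI, rfl, hall⟩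
    push Not at hall
    obtain ⟨i, hi⟩ := hall
    set P := mkFan D hD hI with hP
    set h : ℤ → ℝ := fun i => H (rep D hD i) with hh
    set A := P.Δ (i - 1) with hA
    set B := P.Δ i with hB
    have sA : 0 < sin A := P.sin_Δ_pos _
    have sB : 0 < sin B := P.sin_Δ_pos _
    have hp : 0 < h (i - 1) := hH _ (rep_mem D hD _)
    have hn : 0 < h (i + 1) := hH _ (rep_mem D hD _)
    have h0 : 0 < h i := hH _ (rep_mem D hD _)
    have hineq : h (i + 1) * sin A + h (i - 1) * sin B ≤ h i * sin (A + B) := by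
      have e : P.len h i * (sin A * sin B) =
          h (i + 1) * sin A + h (i - 1) * sin B - h i * sin (A + B) := by
        simp only [Fan.len, Fan.q, Fan.p, sub_add_cancel, ← hA, ← hB, sin_add]
        field_simp
        ring
      nlinarith [mul_nonpos_of_nonpos_of_nonneg hi (mul_pos sA sB).le]
    have hsAB : 0 < sin (A + B) := by
      have : 0 < h i * sin (A + B) := by
        have := mul_pos hn sA
        have := mul_pos hp sB
        linarith
      exact pos_of_mul_pos_right this h0.le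
    have hAB : A + B < π := by
      by_contra hc
      rw [not_lt] at hc
      have h1 := P.Δ_lt_pi (i - 1)
      have h2 := P.Δ_lt_pi i
      rw [← hA] at h1
      rw [← hB] at h2
      have : sin (A + B - π) ≥ 0 := sin_nonneg_of_nonneg_of_le_pi (by linarith) (by linarith)
      rw [sin_sub_pi] at this
      linarith
    have hm3 : 3 ≤ D.card := by
      by_contra hc
      have h2 : D.card = 2 := by omega
      have : P.θ (i - 1 + P.m) = P.θ (i - 1) + π := P.period _
      rw [show i - 1 + (P.m : ℤ) = i + 1 by simp [hP, mkFan, h2]; ring] at this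
      simp only [hA, hB, Fan.Δ, sub_add_cancel] at hAB
      linarith
    set a₀ := rep D hD i with ha₀
    have hne : ∀ j : ℤ, (j = i + 1 ∨ j = i - 1) → rep D hD j ≠ a₀ := by
      intro j hj e
      have e' := (D.orderEmbOfFin rfl).injective e
      rw [Fin.mk.injEq] at e'
      have q1 := Int.emod_nonneg j (show (D.card : ℤ) ≠ 0 by omega)
      have q2 := Int.emod_nonneg i (show (D.card : ℤ) ≠ 0 by omega)
      have e2 : j % (D.card : ℤ) = i % (D.card : ℤ) := by omega
      have hdvd := Int.dvd_of_emod_eq_zero (Int.emod_eq_emod_iff_emod_sub_eq_zero.1 e2)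
      have := Int.le_of_dvd one_pos (show (D.card : ℤ) ∣ 1 by
        rcases hj with rfl | rfl
        · simpa using hdvd
        · simpa using hdvd)
      omega
    have hsub : D.erase a₀ ⊂ D := Finset.erase_ssubset (rep_mem D hD i)
    have hcard : 2 ≤ (D.erase a₀).card := by
      rw [Finset.card_erase_of_mem (rep_mem D hD i)]; omega
    obtain ⟨D', hD'sub, hD', hI', heq, hpos⟩ := ih _ hsub hcard
      (fun a ha => hI a (Finset.mem_of_mem_erase ha)) (fun a ha => hH a (Finset.mem_of_mem_erase ha))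
    refine ⟨D', hD'sub.trans (Finset.erase_subset _ _), hD', hI', heq.trans ?_, hpos⟩
    ext x
    refine ⟨fun hx a ha => ?_, fun hx a ha => hx a (Finset.mem_of_mem_erase ha)⟩
    rcases eq_or_ne a a₀ with rfl | hne'
    swap
    · exact hx a (Finset.mem_erase.2 ⟨hne', ha⟩)
    have x1 : |ip x (dir (P.θ (i - 1)))| ≤ h (i - 1) :=
      (abs_ip_shift x _ _).trans_le (hx _ (Finset.mem_erase.2 ⟨hne _ (Or.inr rfl), rep_mem D hD _⟩))
    have x2 : |ip x (dir (P.θ (i + 1)))| ≤ h (i + 1) :=
      (abs_ip_shift x _ _).trans_le (hx _ (Finset.mem_erase.2 ⟨hne _ (Or.inl rfl), rep_mem D hD _⟩))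
    have e : |ip x (dir a₀)| = |ip x (dir (P.θ i))| := (abs_ip_shift x _ _).symm
    rw [e]
    refine le_of_mul_le_mul_left ?_ hsAB
    calc sin (A + B) * |ip x (dir (P.θ i))| =
          |sin B * ip x (dir (P.θ (i - 1))) + sin A * ip x (dir (P.θ (i + 1)))| := by
          rw [show sin (A + B) * |ip x (dir (P.θ i))| = |sin (A + B) * ip x (dir (P.θ i))| by
            rw [abs_mul, abs_of_pos hsAB]]
          congr 1
          rw [show P.θ (i - 1) = P.θ i - A by simp only [hA, Fan.Δ, sub_add_cancel]; ring,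
            show P.θ (i + 1) = P.θ i + B by simp only [hB, Fan.Δ]; ring]
          simp only [ip, dir, sin_add, sin_sub, cos_add, cos_sub]
          ring
      _ ≤ sin B * h (i - 1) + sin A * h (i + 1) := by
          refine (abs_add_le _ _).trans ?_
          rw [abs_mul, abs_mul, abs_of_pos sA, abs_of_pos sB]
          gcongr
      _ ≤ sin (A + B) * H a₀ := by
          change _ ≤ sin (A + B) * h i
          linarith

/-- Exponential widths. -/
noncomputable def width (c b : ℝ → ℝ) (t : ℝ) (a : ℝ) : ℝ := Real.exp (c a + t * b a)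

lemma strips_mono {D : Finset ℝ} {H H' : ℝ → ℝ} (h : ∀ a ∈ D, H a ≤ H' a) :
    strips D H ⊆ strips D H' := fun _ hx a ha => (hx a ha).trans (h a ha)

lemma volume_strips (D : Finset ℝ) (hD : 2 ≤ D.card) (hI : ∀ a ∈ D, a ∈ Set.Ico (0 : ℝ) π)
    (H : ℝ → ℝ) (hH : ∀ a ∈ D, 0 < H a) : ∃ v : ℝ, 0 < v ∧ volume (strips D H) = ENNReal.ofReal v := by
  obtain ⟨D', hsub, hD', hI', heq, hlen⟩ := exists_active D hD hI H hH
  have hpos : ∀ i, 0 < H (rep D' hD' i) := fun i => hH _ (hsub (rep_mem D' hD' i))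
  refine ⟨_, Finset.sum_pos (fun n _ => mul_pos (hpos n) (hlen n))
    (s := Finset.range (mkFan D' hD' hI').m)
    (Finset.nonempty_range_iff.2 (by have := (mkFan D' hD' hI').two_le; omega)), ?_⟩
  rw [← heq, ← poly_mkFan D' hD' hI',
    Fan.volume_poly (per_rep D' hD' hI' H) hpos hlen]
  rfl

lemma hasDerivAt_len (P : Fan) {h h' : ℝ → ℤ → ℝ} {t : ℝ}
    (hd : ∀ j, HasDerivAt (fun s => h s j) (h' t j) t) (i : ℤ) :
    HasDerivAt (fun s => P.len (h s) i) (P.len (h' t) i) t := by
  simp only [Fan.len, Fan.q, Fan.p]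
  exact (((hd (i + 1)).sub ((hd i).mul_const _)).div_const _).add
    (((hd (i - 1)).sub ((hd (i - 1 + 1)).mul_const _)).div_const _)

lemma hasDerivAt_Q (P : Fan) {f f' g g' : ℝ → ℤ → ℝ} {t : ℝ}
    (hf : ∀ j, HasDerivAt (fun s => f s j) (f' t j) t)
    (hg : ∀ j, HasDerivAt (fun s => g s j) (g' t j) t) :
    HasDerivAt (fun s => P.Q (f s) (g s)) (P.Q (f' t) (g t) + P.Q (f t) (g' t)) t := by
  simp only [Fan.Q, ← Finset.sum_add_distrib]
  exact HasDerivAt.fun_sum fun n _ => (hf n).fun_mul (hasDerivAt_len P hg n)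

/-- Log-concavity of the area of finitely many strips. -/
theorem strips_logConcave (D : Finset ℝ) (hD : 2 ≤ D.card)
    (hI : ∀ a ∈ D, a ∈ Set.Ico (0 : ℝ) π) (c b : ℝ → ℝ) {l : ℝ} (hl0 : 0 < l) (hl1 : l < 1) :
    (1 - l) * Real.log (volume (strips D (width c b 0))).toReal +
        l * Real.log (volume (strips D (width c b 1))).toReal ≤
      Real.log (volume (strips D (width c b l))).toReal := by
  set ψ : ℝ → ℝ := fun t => Real.log (volume (strips D (width c b t))).toReal with hψ
  have hpos : ∀ t, 0 < (volume (strips D (width c b t))).toReal ∧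
      volume (strips D (width c b t)) ≠ ⊤ := by
    intro t
    obtain ⟨v, hv, e⟩ := volume_strips D hD hI (width c b t) (fun a _ => Real.exp_pos _)
    rw [e, ENNReal.toReal_ofReal hv.le]
    exact ⟨hv, ENNReal.ofReal_ne_top⟩
  -- continuity
  set M := ∑ a ∈ D, |b a| with hM
  have hM0 : 0 ≤ M := Finset.sum_nonneg fun a _ => abs_nonneg _
  have hlip : ∀ s t, ψ t ≤ ψ s + 2 * M * |t - s| := by
    intro s t
    have hsub : strips D (width c b t) ⊆
        Real.exp (M * |t - s|) • strips D (width c b s) := by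
      intro x hx
      refine ⟨(Real.exp (M * |t - s|))⁻¹ • x, fun a ha => ?_, ?_⟩
      · have hb : |b a| ≤ M := Finset.single_le_sum (fun a _ => abs_nonneg (b a)) ha
        have h1 := hx a ha
        have e : ip ((Real.exp (M * |t - s|))⁻¹ • x) (dir a) =
            (Real.exp (M * |t - s|))⁻¹ * ip x (dir a) := by
          simp only [ip, Prod.smul_fst, Prod.smul_snd, smul_eq_mul]; ring
        rw [e, abs_mul, abs_inv, abs_of_pos (Real.exp_pos _), inv_mul_le_iff₀ (Real.exp_pos _)]
        refine h1.trans ?_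
        rw [width, width, ← Real.exp_add, Real.exp_le_exp]
        have h2 : (t - s) * b a ≤ |t - s| * |b a| := (le_abs_self _).trans_eq (abs_mul _ _)
        have h3 := mul_le_mul_of_nonneg_left hb (abs_nonneg (t - s))
        linarith
      · simp [smul_smul]
    have := ENNReal.toReal_mono (by
      rw [Measure.addHaar_smul]; exact ENNReal.mul_ne_top ENNReal.ofReal_ne_top (hpos s).2)
      (measure_mono (μ := volume) hsub)
    rw [Measure.addHaar_smul, Module.finrank_prod, Module.finrank_self, ENNReal.toReal_mul,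
      ENNReal.toReal_ofReal (abs_nonneg _), abs_of_nonneg (by positivity)] at this
    refine (Real.log_le_log (hpos t).1 this).trans (le_of_eq ?_)
    rw [Real.log_mul (by positivity) (hpos s).1.ne', Real.log_pow, Real.log_exp]
    push_cast
    ring
  have hcont : Continuous ψ := by
    refine (LipschitzWith.of_dist_le_mul (K := (2 * M).toNNReal) fun s t => ?_).continuous
    rw [Real.dist_eq, Real.dist_eq, Real.coe_toNNReal _ (by positivity), abs_le]
    have h1 := hlip s t
    have h2 := hlip t s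
    rw [abs_sub_comm t s] at h1
    constructor <;> linarith
  by_contra hcon
  rw [not_le] at hcon
  change ψ l < (1 - l) * ψ 0 + l * ψ 1 at hcon
  set η := (1 - l) * ψ 0 + l * ψ 1 - ψ l with hη
  have hη0 : 0 < η := by linarith
  set G : ℝ → ℝ := fun t => ψ t - ((1 - t) * ψ 0 + t * ψ 1) + η * (t * (1 - t)) with hG
  have hGc : ContinuousOn G (Set.Icc 0 1) := by
    rw [hG]; exact (by fun_prop : Continuous _).continuousOn
  obtain ⟨t₀, ht₀, hmin⟩ := isCompact_Icc.exists_isMinOn (nonempty_Icc.2 zero_le_one) hGc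
  have hGl : G l < 0 := by
    have : l * (1 - l) < 1 := by nlinarith
    have := mul_lt_mul_of_pos_left this hη0
    simp only [hG]
    linarith
  have hG0 : G t₀ < 0 := lt_of_le_of_lt (hmin ⟨hl0.le, hl1.le⟩) hGl
  have ht₀' : t₀ ∈ Set.Ioo (0 : ℝ) 1 := by
    refine ⟨lt_of_le_of_ne ht₀.1 ?_, lt_of_le_of_ne ht₀.2 ?_⟩ <;> intro e
    · rw [← e] at hG0; simp [hG] at hG0
    · rw [e] at hG0; simp [hG] at hG0
  -- the majorant
  obtain ⟨D', hsub, hD', hI', heq, hlen⟩ :=
    exists_active D hD hI (width c b t₀) (fun a _ => Real.exp_pos _)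
  set P := mkFan D' hD' hI' with hP
  set h : ℝ → ℤ → ℝ := fun t i => width c b t (rep D' hD' i) with hh
  set g : ℤ → ℝ := fun i => b (rep D' hD' i) with hgdef
  have hper : ∀ t, Per P.m (h t) := fun t => per_rep D' hD' hI' (width c b t)
  have hgper : Per P.m g := per_rep D' hD' hI' b
  have hposh : ∀ t i, 0 < h t i := fun t i => Real.exp_pos _
  set h1 : ℝ → ℤ → ℝ := fun t i => g i * h t i with hh1
  set h2 : ℝ → ℤ → ℝ := fun t i => g i ^ 2 * h t i with hh2
  have hd1 : ∀ t j, HasDerivAt (fun s => h s j) (h1 t j) t := fun t j => by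
    have := ((hasDerivAt_id t).mul_const (b (rep D' hD' j))).const_add (c (rep D' hD' j))
    refine this.exp.congr_deriv ?_
    simp [hh1, hh, hgdef, width]; ring
  have hd2 : ∀ t j, HasDerivAt (fun s => h1 s j) (h2 t j) t := fun t j => by
    refine ((hd1 t j).const_mul (g j)).congr_deriv ?_
    simp [hh1, hh2]; ring
  have hev : ∀ᶠ t in 𝓝 t₀, ∀ i, 0 < P.len (h t) i := by
    have hm : (0 : ℤ) < P.m := by have := P.two_le; omega
    have hfin : ∀ᶠ t in 𝓝 t₀, ∀ n ∈ Finset.range P.m, 0 < P.len (h t) (n : ℕ) :=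
      (Finset.eventually_all _).2 fun n _ =>
        (hasDerivAt_len P (fun j => hd1 t₀ j) n).continuousAt.eventually (lt_mem_nhds (hlen n))
    filter_upwards [hfin] with t ht i
    have hp : Function.Periodic (P.len (h t)) (P.m : ℤ) := Fan.len_per (hper t)
    obtain ⟨y, hy, hyv⟩ := hp.exists_mem_Ico₀ hm i
    obtain ⟨n, rfl⟩ : ∃ n : ℕ, y = n := ⟨y.toNat, by have := hy.1; omega⟩
    rw [hyv]
    exact ht n (Finset.mem_range.2 (by exact_mod_cast hy.2))
  obtain ⟨δ, hδ, hball⟩ := Metric.eventually_nhds_iff_ball.1 hev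
  set φ : ℝ → ℝ := fun t => Real.log (P.Q (h t) (h t)) with hφ
  have hQpos : ∀ t ∈ Metric.ball t₀ δ, 0 < P.Q (h t) (h t) := fun t ht =>
    Finset.sum_pos (fun n _ => mul_pos (hposh t n) (hball t ht n))
      (Finset.nonempty_range_iff.2 (by have := P.two_le; omega))
  have hvol : ∀ t ∈ Metric.ball t₀ δ,
      volume (strips D' (width c b t)) = ENNReal.ofReal (P.Q (h t) (h t)) := fun t ht => by
    rw [← poly_mkFan D' hD' hI']
    exact Fan.volume_poly (hper t) (hposh t) (hball t ht)
  have hmaj : ∀ t ∈ Metric.ball t₀ δ, ψ t ≤ φ t := fun t ht => by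
    refine Real.log_le_log (hpos t).1 ?_
    rw [← ENNReal.toReal_ofReal (hQpos t ht).le, ← hvol t ht]
    exact ENNReal.toReal_mono (by rw [hvol t ht]; exact ENNReal.ofReal_ne_top)
      (measure_mono fun x hx a ha => hx a (hsub ha))
  have hmaj0 : ψ t₀ = φ t₀ := by
    have hb0 := Metric.mem_ball_self (x := t₀) hδ
    simp only [hψ, hφ]
    rw [← heq, hvol t₀ hb0, ENNReal.toReal_ofReal (hQpos t₀ hb0).le]
  have hconc : ConcaveOn ℝ (Metric.ball t₀ δ) φ := by
    have hQ1 : ∀ t, HasDerivAt (fun s => P.Q (h s) (h s)) (2 * P.Q (h1 t) (h t)) t := fun t => by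
      refine (hasDerivAt_Q P (hd1 t) (hd1 t)).congr_deriv ?_
      rw [Fan.Q_comm (hper t) (hgper.mul (hper t))]
      change P.Q (h1 t) (h t) + P.Q (h1 t) (h t) = _
      ring
    have hQ2 : ∀ t, HasDerivAt (fun s => 2 * P.Q (h1 s) (h s))
        (2 * (P.Q (h2 t) (h t) + P.Q (h1 t) (h1 t))) t := fun t =>
      (hasDerivAt_Q P (hd2 t) (hd1 t)).const_mul 2
    refine concaveOn_of_hasDerivWithinAt2_nonpos (convex_ball t₀ δ)
      (f' := fun t => 2 * P.Q (h1 t) (h t) / P.Q (h t) (h t))
      (f'' := fun t => (2 * (P.Q (h2 t) (h t) + P.Q (h1 t) (h1 t)) * P.Q (h t) (h t) -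
        2 * P.Q (h1 t) (h t) * (2 * P.Q (h1 t) (h t))) / P.Q (h t) (h t) ^ 2) ?_ ?_ ?_ ?_
    · exact fun t ht => ((hQ1 t).log (hQpos t ht).ne').continuousAt.continuousWithinAt
    · exact fun t ht => ((hQ1 t).log (hQpos t (interior_subset ht)).ne').hasDerivWithinAt
    · exact fun t ht =>
        ((hQ2 t).fun_div (hQ1 t) (hQpos t (interior_subset ht)).ne').hasDerivWithinAt
    · intro t ht
      have := Fan.log_second (hper t) hgper (hposh t) (hball t (interior_subset ht))
      refine div_nonpos_of_nonpos_of_nonneg ?_ (sq_nonneg _)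
      simp only [hh1, hh2]
      linarith
  -- contradiction at the minimum
  obtain ⟨d, hd, hd1', hd2', hd3'⟩ : ∃ d, 0 < d ∧ d < δ ∧ d ≤ t₀ ∧ d ≤ 1 - t₀ :=
    ⟨min (δ / 2) (min t₀ (1 - t₀)), lt_min (by linarith) (lt_min ht₀'.1 (by linarith [ht₀'.2])),
      (min_le_left _ _).trans_lt (by linarith),
      (min_le_right _ _).trans (min_le_left _ _), (min_le_right _ _).trans (min_le_right _ _)⟩
  have m1 : t₀ + d ∈ Metric.ball t₀ δ := by simp [abs_of_pos hd, hd1']
  have m2 : t₀ - d ∈ Metric.ball t₀ δ := by simp [abs_of_pos hd, hd1']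
  have hc := hconc.2 m1 m2 (show (0 : ℝ) ≤ 1 / 2 by norm_num) (show (0 : ℝ) ≤ 1 / 2 by norm_num)
    (by norm_num)
  simp only [smul_eq_mul] at hc
  rw [show 1 / 2 * (t₀ + d) + 1 / 2 * (t₀ - d) = t₀ by ring] at hc
  have g1 : G t₀ ≤ G (t₀ + d) := hmin ⟨by linarith, by linarith⟩
  have g2 : G t₀ ≤ G (t₀ - d) := hmin ⟨by linarith, by linarith⟩
  have i1 := hmaj _ m1
  have i2 := hmaj _ m2
  have hdd : 0 < η * (d * d) := by positivity
  simp only [hG] at g1 g2
  linarith

/-- Support function on `ℝ × ℝ`. -/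
noncomputable def supp2 (K : Set (ℝ × ℝ)) (a : ℝ × ℝ) : ℝ := sSup ((fun x => ip x a) '' K)

section supp

variable {K : Set (ℝ × ℝ)} (hK : IsCompact K) (hne : K.Nonempty) (hs : ∀ x ∈ K, -x ∈ K)
include hK

lemma le_supp2 {x : ℝ × ℝ} (hx : x ∈ K) (a : ℝ × ℝ) : ip x a ≤ supp2 K a :=
  le_csSup (hK.image (by unfold ip; fun_prop)).bddAbove (mem_image_of_mem _ hx)

lemma continuous_supp2 : Continuous (supp2 K) :=
  hK.continuous_sSup (f := fun a x => ip x a) (by unfold ip; fun_prop)

include hs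

lemma abs_le_supp2 {x : ℝ × ℝ} (hx : x ∈ K) (a : ℝ × ℝ) : |ip x a| ≤ supp2 K a :=
  abs_le.2 ⟨by
    have := le_supp2 hK (hs x hx) a
    simp only [ip, Prod.fst_neg, Prod.snd_neg] at this ⊢
    linarith, le_supp2 hK hx a⟩

include hne

lemma supp2_smul (r : ℝ) (a : ℝ × ℝ) : supp2 K (r • a) = |r| * supp2 K a := by
  have e : ∀ x, ip x (r • a) = r * ip x a := fun x => by
    simp only [ip, Prod.smul_fst, Prod.smul_snd, smul_eq_mul]; ring
  refine le_antisymm (csSup_le (hne.image _) ?_) ?_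
  · rintro _ ⟨x, hx, rfl⟩
    simp only [e]
    exact (le_abs_self _).trans ((abs_mul _ _).trans_le
      (mul_le_mul_of_nonneg_left (abs_le_supp2 hK hs hx a) (abs_nonneg r)))
  · rcases eq_or_ne r 0 with rfl | hr
    · obtain ⟨x, hx⟩ := hne
      simpa using (abs_nonneg _).trans (abs_le_supp2 hK hs hx ((0 : ℝ) • a))
    rw [mul_comm, ← le_div_iff₀ (abs_pos.2 hr)]
    refine csSup_le (hne.image _) ?_
    rintro _ ⟨x, hx, rfl⟩
    rw [le_div_iff₀ (abs_pos.2 hr)]
    refine (mul_le_mul_of_nonneg_right (le_abs_self _) (abs_nonneg r)).trans ?_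
    rw [← abs_mul, mul_comm, ← e]
    exact abs_le_supp2 hK hs hx _

lemma supp2_pos (hv : volume K ≠ 0) (θ : ℝ) : 0 < supp2 K (dir θ) := by
  obtain ⟨x₀, hx₀⟩ := hne
  refine lt_of_le_of_ne ((abs_nonneg _).trans (abs_le_supp2 hK hs hx₀ _)) fun h0 => hv ?_
  let L : (ℝ × ℝ) →ₗ[ℝ] ℝ := cos θ • LinearMap.fst ℝ ℝ ℝ + sin θ • LinearMap.snd ℝ ℝ ℝ
  have hL : ∀ x, L x = ip x (dir θ) := fun x => by simp [L, ip, dir]; ring
  refine measure_mono_null (t := (LinearMap.ker L : Set (ℝ × ℝ))) (fun x hx => ?_) ?_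
  · have := abs_le_supp2 hK hs hx (dir θ)
    rw [← h0, abs_nonpos_iff] at this
    rw [SetLike.mem_coe, LinearMap.mem_ker, hL, this]
  · refine Measure.addHaar_submodule _ _ ?_
    rw [Ne, LinearMap.ker_eq_top]
    intro e
    have : L (cos θ, sin θ) = 0 := by rw [e]; rfl
    rw [hL] at this
    simp only [ip, dir] at this
    have := sin_sq_add_cos_sq θ
    linarith [sq (sin θ), sq (cos θ)]

end supp

/-- The planar logarithmic combination. -/
noncomputable def logBody2 (K L : Set (ℝ × ℝ)) (l : ℝ) : Set (ℝ × ℝ) :=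
  {x | ∀ a, ip x a ≤ supp2 K a ^ (1 - l) * supp2 L a ^ l}

/-- dyadic directions -/
noncomputable def grid (n : ℕ) : Finset ℝ :=
  (Finset.range (2 ^ (n + 1))).image fun k : ℕ => (k : ℝ) * π / 2 ^ (n + 1)

lemma grid_mem {n : ℕ} {a : ℝ} (ha : a ∈ grid n) : a ∈ Set.Ico (0 : ℝ) π := by
  obtain ⟨k, hk, rfl⟩ := Finset.mem_image.1 ha
  rw [Finset.mem_range] at hk
  refine ⟨by positivity, ?_⟩
  rw [div_lt_iff₀ (by positivity)]
  have : (k : ℝ) < 2 ^ (n + 1) := by exact_mod_cast hk
  nlinarith [pi_pos]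

lemma two_le_grid (n : ℕ) : 2 ≤ (grid n).card := by
  rw [grid, Finset.card_image_of_injective]
  · rw [Finset.card_range, pow_succ]
    have := Nat.one_le_two_pow (n := n)
    omega
  · intro a b h
    simp only [div_left_inj' (pow_ne_zero (n + 1) (two_ne_zero (α := ℝ))), mul_left_inj' pi_ne_zero,
      Nat.cast_inj] at h
    exact h

lemma grid_mono : Monotone grid := monotone_nat_of_le_succ fun n a ha => by
  obtain ⟨k, hk, rfl⟩ := Finset.mem_image.1 ha
  rw [Finset.mem_range] at hk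
  refine Finset.mem_image.2 ⟨2 * k, Finset.mem_range.2 ?_, ?_⟩
  · rw [pow_succ 2 (n + 1)]; omega
  · push_cast
    rw [pow_succ (2 : ℝ) (n + 1)]
    ring

lemma grid_dense {θ : ℝ} (hθ : θ ∈ Set.Ico (0 : ℝ) π) :
    θ ∈ closure (⋃ n, (grid n : Set ℝ)) := by
  rw [Metric.mem_closure_iff]
  intro ε hε
  obtain ⟨n, hn⟩ := exists_pow_lt_of_lt_one (show 0 < ε / π by positivity)
    (show (1 / 2 : ℝ) < 1 by norm_num)
  set N : ℝ := 2 ^ (n + 1) with hN
  have hN0 : 0 < N := by positivity
  refine ⟨(⌊θ * N / π⌋₊ : ℕ) * π / N, mem_iUnion.2 ⟨n, Finset.mem_image.2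
    ⟨⌊θ * N / π⌋₊, Finset.mem_range.2 ?_, rfl⟩⟩, ?_⟩
  · rw [Nat.floor_lt (div_nonneg (mul_nonneg hθ.1 hN0.le) pi_pos.le), div_lt_iff₀ pi_pos]
    push_cast
    rw [← hN]
    nlinarith [hθ.2]
  · have h1 := Nat.floor_le (div_nonneg (mul_nonneg hθ.1 hN0.le) pi_pos.le)
    have h2 := Nat.lt_floor_add_one (θ * N / π)
    rw [le_div_iff₀ pi_pos] at h1
    rw [div_lt_iff₀ pi_pos] at h2
    rw [Real.dist_eq, abs_lt]
    have hsmall : π / N < ε := by
      rw [lt_div_iff₀ pi_pos] at hn
      have e : π / N = (1 / 2) ^ n * π / 2 := by rw [hN, pow_succ, div_pow, one_pow]; field_simp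
      have : 0 < (1 / 2 : ℝ) ^ n * π := by positivity
      linarith
    have e1 : θ - (⌊θ * N / π⌋₊ : ℕ) * π / N = (θ * N - (⌊θ * N / π⌋₊ : ℕ) * π) / N := by
      field_simp
    rw [e1]
    constructor
    · have : 0 ≤ (θ * N - (⌊θ * N / π⌋₊ : ℕ) * π) / N := div_nonneg (by linarith) hN0.le
      linarith
    · have : (θ * N - (⌊θ * N / π⌋₊ : ℕ) * π) / N ≤ π / N :=
        div_le_div_of_nonneg_right (by linarith) hN0.le
      linarith

/-- The logarithmic Brunn-Minkowski inequality in the plane, for compact symmetric sets. -/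
theorem logBM_plane {K L : Set (ℝ × ℝ)} (hK : IsCompact K) (hL : IsCompact L)
    (sK : ∀ x ∈ K, -x ∈ K) (sL : ∀ x ∈ L, -x ∈ L) {l : ℝ} (hl0 : 0 < l) (hl1 : l < 1) :
    volume K ^ (1 - l) * volume L ^ l ≤ volume (logBody2 K L l) := by
  by_cases vK : volume K = 0
  · simp [vK, ENNReal.zero_rpow_of_pos (sub_pos.2 hl1)]
  by_cases vL : volume L = 0
  · simp [vL, ENNReal.zero_rpow_of_pos hl0]
  have nK : K.Nonempty := nonempty_of_measure_ne_zero vK
  have nL : L.Nonempty := nonempty_of_measure_ne_zero vL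
  have pK := fun θ => supp2_pos hK nK sK vK θ
  have pL := fun θ => supp2_pos hL nL sL vL θ
  set c : ℝ → ℝ := fun θ => Real.log (supp2 K (dir θ)) with hc
  set b : ℝ → ℝ := fun θ => Real.log (supp2 L (dir θ)) - c θ with hb
  set H : ℝ → ℝ := width c b l with hH
  have hHval : ∀ θ, H θ = supp2 K (dir θ) ^ (1 - l) * supp2 L (dir θ) ^ l := fun θ => by
    rw [Real.rpow_def_of_pos (pK θ), Real.rpow_def_of_pos (pL θ), ← Real.exp_add, hH, width, hb, hc]
    congr 1
    ring
  have hdirneg : ∀ θ, dir (θ + π) = (-1 : ℝ) • dir θ := fun θ => by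
    simp [dir, cos_add_pi, sin_add_pi]
  have hstep : ∀ n, (volume K).toReal ^ (1 - l) * (volume L).toReal ^ l ≤
      (volume (strips (grid n) H)).toReal := by
    intro n
    obtain ⟨v0, hv0, e0⟩ := volume_strips (grid n) (two_le_grid n) (fun a => grid_mem)
      (width c b 0) (fun a _ => Real.exp_pos _)
    obtain ⟨v1, hv1, e1⟩ := volume_strips (grid n) (two_le_grid n) (fun a => grid_mem)
      (width c b 1) (fun a _ => Real.exp_pos _)
    obtain ⟨vl, hvl, el⟩ := volume_strips (grid n) (two_le_grid n) (fun a => grid_mem)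
      H (fun a _ => Real.exp_pos _)
    have key := strips_logConcave (grid n) (two_le_grid n) (fun a => grid_mem) c b hl0 hl1
    rw [← hH, e0, e1, el, ENNReal.toReal_ofReal hv0.le, ENNReal.toReal_ofReal hv1.le,
      ENNReal.toReal_ofReal hvl.le] at key
    have k0 : (volume K).toReal ≤ v0 := by
      rw [← ENNReal.toReal_ofReal hv0.le, ← e0]
      refine ENNReal.toReal_mono (by rw [e0]; exact ENNReal.ofReal_ne_top) (measure_mono ?_)
      intro x hx a _
      rw [width, zero_mul, add_zero, hc, Real.exp_log (pK a)]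
      exact abs_le_supp2 hK sK hx _
    have k1 : (volume L).toReal ≤ v1 := by
      rw [← ENNReal.toReal_ofReal hv1.le, ← e1]
      refine ENNReal.toReal_mono (by rw [e1]; exact ENNReal.ofReal_ne_top) (measure_mono ?_)
      intro x hx a _
      rw [width, one_mul, hb, add_sub_cancel, Real.exp_log (pL a)]
      exact abs_le_supp2 hL sL hx _
    rw [el, ENNReal.toReal_ofReal hvl.le]
    refine (mul_le_mul (Real.rpow_le_rpow ENNReal.toReal_nonneg k0 (by linarith))
      (Real.rpow_le_rpow ENNReal.toReal_nonneg k1 hl0.le) (by positivity) (by positivity)).trans ?_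
    rw [Real.rpow_def_of_pos hv0, Real.rpow_def_of_pos hv1, ← Real.exp_add,
      ← Real.le_log_iff_exp_le hvl]
    linarith
  have hfin : ∀ n, volume (strips (grid n) H) ≠ ⊤ := fun n => by
    obtain ⟨v, -, e⟩ := volume_strips (grid n) (two_le_grid n) (fun a => grid_mem) H
      (fun a _ => Real.exp_pos _)
    rw [e]; exact ENNReal.ofReal_ne_top
  have hclosed : ∀ n, MeasurableSet (strips (grid n) H) := fun n => by
    rw [show strips (grid n) H = ⋂ a ∈ (grid n : Set ℝ), {x | |ip x (dir a)| ≤ H a} by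
      ext x; simp [strips]]
    exact MeasurableSet.biInter (grid n).countable_toSet fun a _ =>
      measurableSet_le (by unfold Fan.ip; fun_prop) measurable_const
  have hanti : Antitone fun n => strips (grid n) H := fun m n hmn x hx a ha =>
    hx a (grid_mono hmn ha)
  have hsub : (⋂ n, strips (grid n) H) ⊆ logBody2 K L l := by
    intro x hx a
    have hall : ∀ θ, |ip x (dir θ)| ≤ supp2 K (dir θ) ^ (1 - l) * supp2 L (dir θ) ^ l := by
      have hcl : IsClosed {θ | |ip x (dir θ)| ≤
          supp2 K (dir θ) ^ (1 - l) * supp2 L (dir θ) ^ l} := by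
        have hd : Continuous dir := by unfold dir; fun_prop
        have c1 := ((continuous_supp2 hK).comp hd).rpow_const (p := 1 - l)
          (fun θ => Or.inl (pK θ).ne')
        have c2 := ((continuous_supp2 hL).comp hd).rpow_const (p := l)
          (fun θ => Or.inl (pL θ).ne')
        refine isClosed_le ?_ (c1.mul c2)
        unfold ip dir
        fun_prop
      intro θ
      obtain ⟨k, hk, -⟩ := existsUnique_add_zsmul_mem_Ico pi_pos θ 0
      rw [zero_add] at hk
      have := closure_minimal (fun t ht => by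
        obtain ⟨n, hn⟩ := mem_iUnion.1 ht
        have := mem_iInter.1 hx n t hn
        rwa [hHval] at this) hcl (grid_dense hk)
      simp only [mem_ofPred_eq, zsmul_eq_mul, abs_ip_shift] at this
      have e : dir (θ + k * π) = ((-1 : ℝ) ^ k) • dir θ := by
        simp [dir, cos_add_int_mul_pi, sin_add_int_mul_pi]
      rw [e, supp2_smul hK nK sK, supp2_smul hL nL sL, abs_zpow, abs_neg, abs_one, one_zpow,
        one_mul, one_mul] at this
      exact this
    set r := Real.sqrt (a.1 ^ 2 + a.2 ^ 2) with hr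
    set θ := Complex.arg (⟨a.1, a.2⟩ : ℂ) with hθ
    have ha : a = r • dir θ := by
      have hn : ‖(⟨a.1, a.2⟩ : ℂ)‖ = r := by
        rw [hr, Complex.norm_def, Complex.normSq_mk]; ring_nf
      refine Prod.ext ?_ ?_
      · simp only [Prod.smul_fst, smul_eq_mul, dir, hθ, ← hn]
        rw [Complex.norm_mul_cos_arg]
      · simp only [Prod.smul_snd, smul_eq_mul, dir, hθ, ← hn]
        rw [Complex.norm_mul_sin_arg]
    have hr0 : 0 ≤ r := Real.sqrt_nonneg _
    rw [ha, supp2_smul hK nK sK, supp2_smul hL nL sL, abs_of_nonneg hr0,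
      Real.mul_rpow hr0 (pK θ).le, Real.mul_rpow hr0 (pL θ).le, mul_mul_mul_comm,
      ← Real.rpow_add_of_nonneg hr0 (by linarith) hl0.le, sub_add_cancel, Real.rpow_one]
    calc ip x (r • dir θ) = r * ip x (dir θ) := by
          simp only [ip, Prod.smul_fst, Prod.smul_snd, smul_eq_mul]; ring
      _ ≤ _ := mul_le_mul_of_nonneg_left ((le_abs_self _).trans (hall θ)) hr0
  refine le_trans ?_ (measure_mono hsub)
  rw [hanti.measure_iInter (fun n => (hclosed n).nullMeasurableSet) ⟨0, hfin 0⟩]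
  refine le_iInf fun n => ?_
  rw [← ENNReal.ofReal_toReal (hfin n), ← ENNReal.ofReal_toReal hK.measure_lt_top.ne,
    ← ENNReal.ofReal_toReal hL.measure_lt_top.ne,
    ENNReal.ofReal_rpow_of_nonneg ENNReal.toReal_nonneg (by linarith),
    ENNReal.ofReal_rpow_of_nonneg ENNReal.toReal_nonneg hl0.le,
    ← ENNReal.ofReal_mul (by positivity)]
  exact ENNReal.ofReal_le_ofReal (hstep n)

end Vale.Agent.P227
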