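import Vale.Agent.P227.Planar
import Vale.Agent.P227.Mult

/-!
Logarithmic Brunn-Minkowski inequality for pairs with `n - 2` common coordinate reflection
symmetries: slicing along a reflection axis reduces the dimension by one.
-/

open Set MeasureTheory Matrix
open scoped ENNReal

namespace Vale.Agent.P227

variable {n : ℕ}

/-- Support function. -/
noncomputable def supp (K : Set (Fin n → ℝ)) (a : Fin n → ℝ) : ℝ :=
  sSup ((fun x => x ⬝ᵥ a) '' K)

/-- The logarithmic combination, written with all vectors. -/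
noncomputable def logBody (K L : Set (Fin n → ℝ)) (l : ℝ) : Set (Fin n → ℝ) :=
  {x | ∀ a, x ⬝ᵥ a ≤ supp K a ^ (1 - l) * supp L a ^ l}

/-- A compact origin symmetric set invariant under the coordinate reflections in `S`. -/
def Good (S : Finset (Fin n)) (K : Set (Fin n → ℝ)) : Prop :=
  IsCompact K ∧ (∀ x ∈ K, -x ∈ K) ∧ ∀ i ∈ S, ∀ x ∈ K, Function.update x i (-x i) ∈ K

lemma continuous_dot (a : Fin n → ℝ) : Continuous (fun x : Fin n → ℝ => x ⬝ᵥ a) := by
  unfold dotProduct; fun_prop

lemma le_supp {K : Set (Fin n → ℝ)} (hK : IsCompact K) {x : Fin n → ℝ} (hx : x ∈ K)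
    (a : Fin n → ℝ) : x ⬝ᵥ a ≤ supp K a :=
  le_csSup (hK.image (continuous_dot a)).bddAbove (mem_image_of_mem _ hx)

lemma supp_nonneg {S : Finset (Fin n)} {K : Set (Fin n → ℝ)} (hK : Good S K) (hne : K.Nonempty)
    (a : Fin n → ℝ) : 0 ≤ supp K a := by
  obtain ⟨x, hx⟩ := hne
  have h1 := le_supp hK.1 hx a
  have h2 := le_supp hK.1 (hK.2.1 x hx) a
  rw [neg_dotProduct] at h2
  linarith

lemma isClosed_logBody (K L : Set (Fin n → ℝ)) (l : ℝ) : IsClosed (logBody K L l) := by
  rw [logBody, Set.ofPred_forall]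
  exact isClosed_iInter fun a => isClosed_le (continuous_dot a) continuous_const

/-- slice orthogonal to the axis `i` -/
def slice (i : Fin (n + 1)) (K : Set (Fin (n + 1) → ℝ)) (z : ℝ) : Set (Fin n → ℝ) :=
  {q | i.insertNth z q ∈ K}

lemma dot_insertNth (i : Fin (n + 1)) (z : ℝ) (q : Fin n → ℝ) (a : Fin (n + 1) → ℝ) :
    (i.insertNth z q : Fin (n + 1) → ℝ) ⬝ᵥ a = z * a i + q ⬝ᵥ fun j => a (i.succAbove j) := by
  simp [dotProduct, Fin.sum_univ_succAbove _ i]

lemma volume_eq_lintegral_slice (i : Fin (n + 1)) {K : Set (Fin (n + 1) → ℝ)}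
    (hK : MeasurableSet K) :
    volume K = ∫⁻ z, volume (slice i K z) ∧ Measurable fun z => volume (slice i K z) := by
  set e := MeasurableEquiv.piFinSuccAbove (fun _ : Fin (n + 1) => ℝ) i with he
  have hp := (volume_preserving_piFinSuccAbove (fun _ : Fin (n + 1) => ℝ) i).symm
  have hm : MeasurableSet (e.symm ⁻¹' K) := e.symm.measurable hK
  have e1 : ∀ z, Prod.mk z ⁻¹' (e.symm ⁻¹' K) = slice i K z := fun z => rfl
  refine ⟨?_, ?_⟩
  · rw [← hp.measure_preimage hK.nullMeasurableSet, Measure.volume_eq_prod,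
      Measure.prod_apply hm]
    exact lintegral_congr fun z => by rw [e1]
  · simp only [← e1]
    exact measurable_measure_prodMk_left hm

lemma slice_good {S : Finset (Fin (n + 1))} {i : Fin (n + 1)} (hi : i ∈ S)
    {K : Set (Fin (n + 1) → ℝ)} (hK : Good S K) (z : ℝ) :
    Good (Finset.univ.filter fun j => i.succAbove j ∈ S) (slice i K z) ∧
      slice i K (-z) = slice i K z := by
  have hflip : ∀ z q, i.insertNth z q ∈ K → i.insertNth (-z) q ∈ K := fun z q hq => by
    have h := hK.2.2 i hi _ hq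
    rw [Fin.insertNth_apply_same] at h
    rwa [show Function.update (i.insertNth z q : Fin (n + 1) → ℝ) i (-z) = i.insertNth (-z) q from
      funext fun j => by
        rcases Fin.eq_self_or_eq_succAbove i j with rfl | ⟨k, rfl⟩
        · simp
        · simp [Fin.succAbove_ne]] at h
  refine ⟨⟨?_, fun q hq => ?_, fun j hj q hq => ?_⟩, ?_⟩
  · refine IsCompact.of_isClosed_subset
      (hK.1.image (f := fun x : Fin (n + 1) → ℝ => fun j => x (i.succAbove j)) (by fun_prop))
      (hK.1.isClosed.preimage (by fun_prop)) fun q hq => ⟨_, hq, ?_⟩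
    funext j
    simp
  · have hneg : (-(i.insertNth z q : Fin (n + 1) → ℝ)) = i.insertNth (-z) (-q) :=
      funext fun j => by
        rcases Fin.eq_self_or_eq_succAbove i j with rfl | ⟨k, rfl⟩ <;> simp
    have := hflip _ _ (hneg ▸ hK.2.1 _ hq)
    rwa [neg_neg] at this
  · simp only [Finset.mem_filter] at hj
    have h := hK.2.2 _ hj.2 _ hq
    rwa [Fin.insertNth_apply_succAbove,
      show Function.update (i.insertNth z q : Fin (n + 1) → ℝ) (i.succAbove j) (-q j) =
        i.insertNth z (Function.update q j (-q j)) from funext fun m => by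
          rcases Fin.eq_self_or_eq_succAbove i m with rfl | ⟨k, rfl⟩
          · simp [(Fin.succAbove_ne m j).symm]
          · rcases eq_or_ne k j with rfl | hk
            · simp
            · simp [hk]] at h
  · ext q
    exact ⟨fun h => show i.insertNth z q ∈ K by simpa using hflip _ _ h, fun h => hflip _ _ h⟩

lemma holder_two {p l A B C D : ℝ} (hp : 0 < p) (hl : 0 < l) (hpl : p + l = 1) (hA : 0 ≤ A)
    (hB : 0 ≤ B) (hC : 0 ≤ C) (hD : 0 ≤ D) :
    A ^ p * B ^ l + C ^ p * D ^ l ≤ (A + C) ^ p * (B + D) ^ l := by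
  rcases eq_or_ne (A + C) 0 with h | h
  · obtain ⟨rfl, rfl⟩ : A = 0 ∧ C = 0 := ⟨by linarith, by linarith⟩
    simp [Real.zero_rpow hp.ne']
  rcases eq_or_ne (B + D) 0 with h' | h'
  · obtain ⟨rfl, rfl⟩ : B = 0 ∧ D = 0 := ⟨by linarith, by linarith⟩
    simp [Real.zero_rpow hl.ne']
  have h1 : 0 < A + C := lt_of_le_of_ne (by linarith) h.symm
  have h2 : 0 < B + D := lt_of_le_of_ne (by linarith) h'.symm
  have g1 := Real.geom_mean_le_arith_mean2_weighted hp.le hl.le (div_nonneg hA h1.le)
    (div_nonneg hB h2.le) hpl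
  have g2 := Real.geom_mean_le_arith_mean2_weighted hp.le hl.le (div_nonneg hC h1.le)
    (div_nonneg hD h2.le) hpl
  have e : ∀ X Y, 0 ≤ X → 0 ≤ Y → X ^ p * Y ^ l =
      (X / (A + C)) ^ p * (Y / (B + D)) ^ l * ((A + C) ^ p * (B + D) ^ l) := fun X Y hX hY => by
    rw [mul_mul_mul_comm, ← Real.mul_rpow (div_nonneg hX h1.le) h1.le,
      ← Real.mul_rpow (div_nonneg hY h2.le) h2.le, div_mul_cancel₀ _ h, div_mul_cancel₀ _ h']
  have hone : p * (A / (A + C)) + l * (B / (B + D)) + (p * (C / (A + C)) + l * (D / (B + D))) = 1 := by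
    field_simp
    linear_combination ((A + C) * (B + D)) * hpl
  rw [e A B hA hB, e C D hC hD, ← add_mul]
  refine mul_le_of_le_one_left (by positivity) ?_
  linarith

lemma half_line {f : ℝ → ℝ≥0∞} (hf : ∀ z, f (-z) = f z) :
    ∫⁻ z, f z = 2 * ∫⁻ z in Ioi 0, f z := by
  rw [← lintegral_add_compl f (measurableSet_Ioi (a := (0 : ℝ))), compl_Ioi,
    ← setLIntegral_congr Iio_ae_eq_Iic]
  have h := (Measure.measurePreserving_neg (volume : Measure ℝ)).setLIntegral_comp_preimage_emb
    (MeasurableEquiv.neg ℝ).measurableEmbedding f (Ioi 0)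
  rw [show (Neg.neg ⁻¹' Ioi (0 : ℝ)) = Iio 0 by ext; simp] at h
  simp only [hf] at h
  rw [h, two_mul]

/-- One slicing step. -/
theorem step {l : ℝ} (hl0 : 0 < l) (hl1 : l < 1) {S : Finset (Fin (n + 1))} {i : Fin (n + 1)}
    (hi : i ∈ S) {K L : Set (Fin (n + 1) → ℝ)} (hK : Good S K) (hL : Good S L)
    (ih : ∀ K' L' : Set (Fin n → ℝ),
      Good (Finset.univ.filter fun j => i.succAbove j ∈ S) K' →
      Good (Finset.univ.filter fun j => i.succAbove j ∈ S) L' →
      volume K' ^ (1 - l) * volume L' ^ l ≤ volume (logBody K' L' l)) :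
    volume K ^ (1 - l) * volume L ^ l ≤ volume (logBody K L l) := by
  obtain ⟨eK, mK⟩ := volume_eq_lintegral_slice i hK.1.measurableSet
  obtain ⟨eL, mL⟩ := volume_eq_lintegral_slice i hL.1.measurableSet
  obtain ⟨eM, mM⟩ := volume_eq_lintegral_slice i (isClosed_logBody K L l).measurableSet
  set proj := fun x : Fin (n + 1) → ℝ => fun j => x (i.succAbove j) with hproj
  have hB : IsCompact (proj '' K ∪ proj '' L) :=
    (hK.1.image (by fun_prop)).union (hL.1.image (by fun_prop))
  set V := volume (proj '' K ∪ proj '' L) with hVdef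
  have bound : ∀ (P : Set (Fin (n + 1) → ℝ)), (P = K ∨ P = L) → ∀ z, volume (slice i P z) ≤ V := by
    intro P hP z
    refine measure_mono fun q hq => ?_
    have : proj (i.insertNth z q) = q := by funext j; simp [hproj]
    rcases hP with rfl | rfl
    · exact Or.inl ⟨_, hq, this⟩
    · exact Or.inr ⟨_, hq, this⟩
  obtain ⟨R, hR⟩ := ((hK.1.union hL.1).image (f := fun x : Fin (n + 1) → ℝ => x i)
    (by fun_prop)).bddAbove
  have hR' : ∀ (P : Set (Fin (n + 1) → ℝ)), (P = K ∨ P = L) → ∀ z, R < z →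
      volume (slice i P z) = 0 := by
    intro P hP z hz
    refine measure_mono_null (t := ∅) (fun q hq => ?_) measure_empty
    have : z ≤ R := hR ⟨i.insertNth z q, by
      rcases hP with rfl | rfl
      · exact Or.inl hq
      · exact Or.inr hq, by simp⟩
    linarith
  have key : ∀ z w : ℝ, 0 < z → 0 < w →
      volume (slice i K z) ^ (1 - l) * volume (slice i L w) ^ l ≤
        volume (slice i (logBody K L l) (z ^ (1 - l) * w ^ l)) := by
    intro z w hz hw
    by_cases vK : volume (slice i K z) = 0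
    · simp [vK, ENNReal.zero_rpow_of_pos (sub_pos.2 hl1)]
    by_cases vL : volume (slice i L w) = 0
    · simp [vL, ENNReal.zero_rpow_of_pos hl0]
    obtain ⟨gK, eKz⟩ := slice_good hi hK z
    obtain ⟨gL, eLw⟩ := slice_good hi hL w
    have nK := nonempty_of_measure_ne_zero vK
    have nL := nonempty_of_measure_ne_zero vL
    refine (ih _ _ gK gL).trans (measure_mono fun q hq a => ?_)
    have ext1 : ∀ (P : Set (Fin (n + 1) → ℝ)), IsCompact P → ∀ t : ℝ, 0 ≤ t →
        slice i P (-t) = slice i P t → (slice i P t).Nonempty →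
        |a i| * t + supp (slice i P t) (fun j => a (i.succAbove j)) ≤ supp P a := by
      intro P hP t ht he hne
      rw [← le_sub_iff_add_le']
      refine csSup_le (hne.image _) ?_
      rintro _ ⟨y, hy, rfl⟩
      rw [le_sub_iff_add_le']
      rcases le_total 0 (a i) with ha | ha
      · have := le_supp hP (show i.insertNth t y ∈ P from hy) a
        rw [dot_insertNth] at this
        rw [abs_of_nonneg ha]
        linarith
      · have hy' : y ∈ slice i P (-t) := he.symm ▸ hy
        have := le_supp hP (show i.insertNth (-t) y ∈ P from hy') a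
        rw [dot_insertNth] at this
        rw [abs_of_nonpos ha]
        linarith
    have k1 := ext1 K hK.1 z hz.le eKz nK
    have k2 := ext1 L hL.1 w hw.le eLw nL
    have hq' := hq (fun j => a (i.succAbove j))
    set A := supp (slice i K z) (fun j => a (i.succAbove j))
    set B := supp (slice i L w) (fun j => a (i.succAbove j))
    have hA : 0 ≤ A := supp_nonneg gK nK _
    have hB0 : 0 ≤ B := supp_nonneg gL nL _
    rw [dot_insertNth]
    have hzw : 0 ≤ z ^ (1 - l) * w ^ l := by positivity
    have h1 : z ^ (1 - l) * w ^ l * a i ≤ (|a i| * z) ^ (1 - l) * (|a i| * w) ^ l := by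
      rw [Real.mul_rpow (abs_nonneg _) hz.le, Real.mul_rpow (abs_nonneg _) hw.le,
        mul_mul_mul_comm, ← Real.rpow_add_of_nonneg (abs_nonneg _) (by linarith) hl0.le,
        sub_add_cancel, Real.rpow_one, mul_comm |a i|]
      exact mul_le_mul_of_nonneg_left (le_abs_self _) hzw
    calc z ^ (1 - l) * w ^ l * a i + q ⬝ᵥ (fun j => a (i.succAbove j))
        ≤ (|a i| * z) ^ (1 - l) * (|a i| * w) ^ l + A ^ (1 - l) * B ^ l := add_le_add h1 hq'
      _ ≤ (|a i| * z + A) ^ (1 - l) * (|a i| * w + B) ^ l :=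
          holder_two (sub_pos.2 hl1) hl0 (sub_add_cancel _ _) (by positivity) (by positivity) hA hB0
      _ ≤ supp K a ^ (1 - l) * supp L a ^ l := by
          refine mul_le_mul (Real.rpow_le_rpow (by positivity) k1 (by linarith))
            (Real.rpow_le_rpow (by positivity) k2 hl0.le) (by positivity)
            (Real.rpow_nonneg ((add_nonneg (by positivity) hA).trans k1) _)
  have pl := pl_mult hl0 hl1 mK mL mM hB.measure_lt_top.ne (bound K (Or.inl rfl))
    (bound L (Or.inr rfl)) (hR' K (Or.inl rfl)) (hR' L (Or.inr rfl)) key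
  rw [eK, eL, half_line (fun z => by rw [(slice_good hi hK z).2]),
    half_line (fun z => by rw [(slice_good hi hL z).2]),
    ENNReal.mul_rpow_of_nonneg _ _ (by linarith : (0:ℝ) ≤ 1 - l),
    ENNReal.mul_rpow_of_nonneg _ _ hl0.le, mul_mul_mul_comm,
    ← ENNReal.rpow_add_of_nonneg _ _ (by linarith : (0:ℝ) ≤ 1 - l) hl0.le, sub_add_cancel,
    ENNReal.rpow_one]
  refine (mul_le_mul_right pl 2).trans ?_
  -- the combination is symmetric about the hyperplane, so its two halves have equal volume
  rw [eM, half_line fun z => ?_]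
  congr 1
  ext q
  have hflip : ∀ (z : ℝ), q ∈ slice i (logBody K L l) z → q ∈ slice i (logBody K L l) (-z) := by
    intro t hq a
    have hinv : ∀ P : Set (Fin (n + 1) → ℝ), Good S P → P.Nonempty →
        supp P (Function.update a i (-a i)) ≤ supp P a := fun P hP hne => by
      refine csSup_le (hne.image _) ?_
      rintro _ ⟨x, hx, rfl⟩
      have := le_supp hP.1 (hP.2.2 i hi x hx) a
      refine le_trans (le_of_eq ?_) this
      simp [dotProduct, Fin.sum_univ_succAbove _ i, Fin.succAbove_ne]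
    have hb := hq (Function.update a i (-a i))
    simp only [dot_insertNth, Function.update_self,
      Function.update_of_ne (Fin.succAbove_ne _ _)] at hb ⊢
    rw [neg_mul, ← mul_neg]
    refine hb.trans ?_
    rcases K.eq_empty_or_nonempty with rfl | nK
    · simp [supp, Real.zero_rpow (sub_pos.2 hl1).ne']
    rcases L.eq_empty_or_nonempty with rfl | nL
    · simp [supp, Real.zero_rpow hl0.ne']
    exact mul_le_mul (Real.rpow_le_rpow (supp_nonneg hK nK _) (hinv K hK nK) (by linarith))
      (Real.rpow_le_rpow (supp_nonneg hL nL _) (hinv L hL nL) hl0.le)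
      (Real.rpow_nonneg (supp_nonneg hL nL _) _) (Real.rpow_nonneg (supp_nonneg hK nK _) _)
  exact ⟨fun h => by simpa using hflip _ h, hflip z⟩

end Vale.Agent.P227
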